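import Vale.Agent.P329.Mark.Core

set_option linter.all false

/-!
An abstract evaluation lemma: a strand is cut at good places, the pieces are bounded.
-/

namespace Vale.Agent.P329.H409

open Vale.Agent.P329 Vale.Agent.P329.Slow Vale.Agent.P329.Mark

variable {α V : Type}

/-- every factor of length `m` contains a word of `G` -/
def Dm (G : Set (List α)) (m : ℕ) (w : List α) : Prop :=
  ∀ u : List α, u <:+: w → u.length = m → ∃ g ∈ G, g <:+: u

theorem Dm.sub {G : Set (List α)} {m : ℕ} {w z : List α} (h : Dm G m w) (hz : z <:+: w) :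
    Dm G m z := fun u hu hm => h u (hu.trans hz) hm

theorem Cls.dm [Finite α] {P : Set (List α) → Prop} (hP : Cls P) (G : Set (List α)) (m : ℕ) :
    P {w : List α | Dm G m w} := by
  have hB : P {u : List α | u.length = m ∧ ¬ ∃ g ∈ G, g <:+: u} :=
    hP.finite (finite_of_length m fun w hw => hw.1.le)
  have h1 := hP.compl (hP.cat hP.univ (hP.cat hB hP.univ))
  convert h1 using 1
  ext w
  constructor
  · rintro hw ⟨a, -, _, ⟨u, ⟨hu, hn⟩, t, -, rfl⟩, rfl⟩
    exact hn (hw u ⟨a, t, by simp⟩ hu)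
  · intro hw u hu hm
    by_contra hn
    obtain ⟨a, t, rfl⟩ := hu
    exact hw ⟨a, trivial, u ++ t, ⟨u, ⟨hm, hn⟩, t, trivial, rfl⟩, by simp⟩

/-- `good u x`: after `u` the strand `x` may be cut; `Ok z`: `z` may be read after a cut. -/
structure CutSys (good : List α → V → Prop) (Ok : List α → Prop) (Ef : List α → V → V)
    (Q : Set (List α)) (B : ℕ) : Prop where
  init : ∀ w ∈ Q, B < w.length → ∀ x, ∃ p z, p ++ z = w ∧ p.length ≤ B ∧ good p x ∧ Ok z ∧ z ∈ Q
  next : ∀ u x z, good u x → Ok z → z ∈ Q → B < z.length → ∃ k z', k ++ z' = z ∧ k ≠ [] ∧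
    k.length ≤ B ∧ (∀ u' x', good u' x' → good (u' ++ k) x') ∧ Ok z' ∧ z' ∈ Q
  fin : ∀ u x z, good u x → Ok z → ∀ u' x', good u' x' → Ef (u' ++ z) x' = Ef (u ++ z) x

variable {good : List α → V → Prop} {Ok : List α → Prop} {Ef : List α → V → V}
  {Q : Set (List α)} {B : ℕ}

variable (good) in
/-- pieces between two cuts -/
def Kp (B : ℕ) : Set (List α) :=
  {k | k.length ≤ B ∧ ∀ u x, good u x → good (u ++ k) x}

variable (good) in
def Pp (B : ℕ) (x : V) : Set (List α) := {p | p.length ≤ B ∧ good p x}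

variable (good Ef) in
def Sp (B : ℕ) (v : V) : Set (List α) :=
  {z | z.length ≤ B ∧ ∀ u x, good u x → Ef (u ++ z) x = v}

theorem good_kst {x : V} {k : List α} (hk : k ∈ kst (Kp good B)) :
    ∀ u, good u x → good (u ++ k) x := by
  obtain ⟨l, hl, rfl⟩ := hk
  induction l with
  | nil => intro u hu; simpa using hu
  | cons k l ih =>
    intro u hu
    rw [List.flatten_cons, ← List.append_assoc]
    exact ih (fun v hv => hl v (List.mem_cons_of_mem _ hv)) _
      ((hl k List.mem_cons_self).2 u x hu)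

theorem cut_sound {x v : V} {w : List α}
    (hw : w ∈ cat (Pp good B x) (cat (kst (Kp good B)) (Sp good Ef B v))) : Ef w x = v := by
  obtain ⟨p, ⟨-, hp⟩, _, ⟨k, hk, z, ⟨-, hz⟩, rfl⟩, rfl⟩ := hw
  rw [← List.append_assoc]
  exact hz _ _ (good_kst hk p hp)

theorem CutSys.cover (S : CutSys good Ok Ef Q B) {x : V} (N : ℕ) :
    ∀ (z : List α), z.length < N → ∀ (u : List α), good u x → Ok z → z ∈ Q →
        z ∈ cat (kst (Kp good B)) (Sp good Ef B (Ef (u ++ z) x)) := by
  induction N with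
  | zero => intro z hz; omega
  | succ N ih =>
    intro z hz u h1 h2 h3
    by_cases hlen : z.length ≤ B
    · exact ⟨[], ⟨[], by simp, rfl⟩, z, ⟨hlen, fun u' x' h => S.fin u x z h1 h2 u' x' h⟩, rfl⟩
    · push Not at hlen
      obtain ⟨k, z', rfl, hk, hkB, hgo, hok, hq⟩ := S.next u x z h1 h2 h3 hlen
      have hk0 : 0 < k.length := List.length_pos_iff.2 hk
      rw [List.length_append] at hz
      have h4 := ih z' (by omega) (u ++ k) (hgo u x h1) hok hq
      rw [List.append_assoc] at h4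
      obtain ⟨l, hl, z'', hz'', rfl⟩ := h4
      refine ⟨k ++ l, ?_, z'', hz'', by rw [List.append_assoc]⟩
      obtain ⟨L, hL, rfl⟩ := hl
      refine ⟨k :: L, ?_, by simp⟩
      intro v hv
      rcases List.mem_cons.1 hv with rfl | hv
      · exact ⟨hkB, hgo⟩
      · exact hL v hv

theorem CutSys.complete (S : CutSys good Ok Ef Q B) {w : List α} (hw : w ∈ Q)
    (hl : B < w.length) (x : V) :
    w ∈ cat (Pp good B x) (cat (kst (Kp good B)) (Sp good Ef B (Ef w x))) := by
  obtain ⟨p, z, rfl, hp, hg, ho, hz⟩ := S.init w hw hl x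
  exact ⟨p, ⟨hp, hg⟩, z, S.cover (z.length + 1) z (Nat.lt_succ_self _) p hg ho hz, rfl⟩

theorem CutSys.cls_val [Finite α] {P : Set (List α) → Prop} (hP : Cls P)
    (S : CutSys good Ok Ef Q B) (hQ : P Q) (x v : V) :
    P {w : List α | w ∈ Q ∧ Ef w x = v} := by
  have h1 : P (P329.cat (Pp good B x) (P329.cat (P329.kst (Kp good B)) (Sp good Ef B v))) :=
    hP.cat (hP.finite (finite_of_length B fun w hw => hw.1))
      (hP.cat (hP.kst (finite_of_length B fun w hw => hw.1))
        (hP.finite (finite_of_length B fun w hw => hw.1)))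
  have h2 : P {w : List α | w.length ≤ B ∧ w ∈ Q ∧ Ef w x = v} :=
    hP.finite (finite_of_length B fun w hw => hw.1)
  have h3 := hP.union (hP.inter hQ h1) h2
  convert h3 using 1
  ext w
  constructor
  · rintro ⟨hs, hv⟩
    by_cases hw : w.length ≤ B
    · exact Or.inr ⟨hw, hs, hv⟩
    · left
      refine ⟨hs, ?_⟩
      have := S.complete hs (by omega) x
      rwa [hv] at this
  · rintro (⟨hs, hw⟩ | ⟨-, hs, hv⟩)
    · exact ⟨hs, cut_sound hw⟩
    · exact ⟨hs, hv⟩

theorem CutSys.cls_act [AddCommGroup V] [Finite α] [Finite V] {P : Set (List α) → Prop}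
    (hP : Cls P) (M : α → V →+ V) (S : CutSys good Ok Ef Q B) (hQ : P Q)
    (hE : ∀ w x, Ef w x - Ef w 0 = act M w x) (x : V) (F : Set V) :
    P {w : List α | w ∈ Q ∧ act M w x ∈ F} := by
  have h1 : P (⋃ v : V, ⋃ v' : V, ⋃ _ : v - v' ∈ F,
      ({w : List α | w ∈ Q ∧ Ef w x = v} ∩ {w : List α | w ∈ Q ∧ Ef w 0 = v'})) :=
    hP.iUnion fun v => hP.iUnion fun v' => hP.iUnion_prop fun _ =>
      hP.inter (S.cls_val hP hQ x v) (S.cls_val hP hQ 0 v')
  convert h1 using 1
  ext w
  have h2 := hE w x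
  simp only [Set.mem_iUnion]
  constructor
  · rintro ⟨hs, hF⟩
    exact ⟨_, _, by rw [h2]; exact hF, ⟨hs, rfl⟩, ⟨hs, rfl⟩⟩
  · rintro ⟨v, v', hF, ⟨hs, rfl⟩, ⟨-, rfl⟩⟩
    rw [h2] at hF
    exact ⟨hs, hF⟩

end Vale.Agent.P329.H409
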