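import Mathlib.Order.Interval.Finset.Nat
import Mathlib.Data.ZMod.Basic
import Mathlib.Tactic.Ring

set_option linter.all false

/-!
Counting visits.
-/

namespace Vale.Agent.P329.H409

section count

open Classical in
/-- the number of `q` with `a < q ≤ b` and `p q` -/
noncomputable def ct (p : ℕ → Prop) (a b : ℕ) : ℕ := ((Finset.Ioc a b).filter p).card

theorem ct_self (p : ℕ → Prop) (a : ℕ) : ct p a a = 0 := by
  unfold ct
  simp

theorem ct_congr {p p' : ℕ → Prop} {a b : ℕ} (h : ∀ q, a < q → q ≤ b → (p q ↔ p' q)) :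
    ct p a b = ct p' a b := by
  unfold ct
  congr 1
  ext q
  simp only [Finset.mem_filter, Finset.mem_Ioc]
  constructor
  · rintro ⟨⟨h1, h2⟩, h3⟩
    exact ⟨⟨h1, h2⟩, (h q h1 h2).1 h3⟩
  · rintro ⟨⟨h1, h2⟩, h3⟩
    exact ⟨⟨h1, h2⟩, (h q h1 h2).2 h3⟩

theorem ct_add (p : ℕ → Prop) {a b c : ℕ} (h1 : a ≤ b) (h2 : b ≤ c) :
    ct p a c = ct p a b + ct p b c := by
  classical
  unfold ct
  rw [← Finset.card_union_of_disjoint]
  · congr 1
    ext q
    simp only [Finset.mem_union, Finset.mem_filter, Finset.mem_Ioc]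
    constructor
    · rintro ⟨⟨h3, h4⟩, h5⟩
      rcases Nat.lt_or_ge b q with h6 | h6
      · exact Or.inr ⟨⟨h6, h4⟩, h5⟩
      · exact Or.inl ⟨⟨h3, h6⟩, h5⟩
    · rintro (⟨⟨h3, h4⟩, h5⟩ | ⟨⟨h3, h4⟩, h5⟩)
      · exact ⟨⟨h3, by omega⟩, h5⟩
      · exact ⟨⟨by omega, h4⟩, h5⟩
  · rw [Finset.disjoint_left]
    intro q h3 h4
    simp only [Finset.mem_filter, Finset.mem_Ioc] at h3 h4
    omega

theorem ct_shift (p : ℕ → Prop) (k a b : ℕ) :
    ct p (k + a) (k + b) = ct (fun q => p (k + q)) a b := by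
  classical
  unfold ct
  have : (Finset.Ioc (k + a) (k + b)).filter p =
      ((Finset.Ioc a b).filter fun q => p (k + q)).map ⟨fun q => k + q, fun x y h => by
        simpa using h⟩ := by
    ext q
    simp only [Finset.mem_filter, Finset.mem_Ioc, Finset.mem_map, Function.Embedding.coeFn_mk]
    constructor
    · rintro ⟨⟨h1, h2⟩, h3⟩
      have e : k + (q - k) = q := by omega
      refine ⟨q - k, ⟨⟨by omega, by omega⟩, ?_⟩, e⟩
      rwa [e]
    · rintro ⟨r, ⟨⟨h1, h2⟩, h3⟩, rfl⟩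
      have e : k + a < k + r ∧ k + r ≤ k + b := by omega
      exact ⟨e, h3⟩
  rw [this, Finset.card_map]

theorem ct_one {p : ℕ → Prop} {a : ℕ} : ct p a (a + 1) ≤ 1 ∧ (p (a + 1) → ct p a (a + 1) = 1) ∧
    (¬ p (a + 1) → ct p a (a + 1) = 0) := by
  classical
  have h : Finset.Ioc a (a + 1) = {a + 1} := by
    ext q
    simp only [Finset.mem_Ioc, Finset.mem_singleton]
    omega
  unfold ct
  rw [h, Finset.filter_singleton]
  refine ⟨?_, ?_, ?_⟩
  · split <;> simp
  · intro hp; rw [if_pos hp]; simp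
  · intro hp; rw [if_neg hp]; simp

theorem ct_pos {p : ℕ → Prop} {a b q : ℕ} (h1 : a < q) (h2 : q ≤ b) (h3 : p q) :
    0 < ct p a b := by
  classical
  unfold ct
  exact Finset.card_pos.2 ⟨q, by simp only [Finset.mem_filter, Finset.mem_Ioc]; exact ⟨⟨h1, h2⟩, h3⟩⟩

/-- many visits -/
theorem ct_many {p : ℕ → Prop} {a H : ℕ} (D : ℕ) (h : ∀ t, a ≤ t → t + H ≤ a + D * H →
    ∃ q, t < q ∧ q ≤ t + H ∧ p q) : D ≤ ct p a (a + D * H) := by
  induction D with
  | zero => exact Nat.zero_le _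
  | succ D ih =>
    have e : a + (D + 1) * H = a + D * H + H := by ring
    rw [e] at h ⊢
    rw [ct_add p (Nat.le_add_right a (D * H)) (Nat.le_add_right _ H)]
    have h1 := ih fun t h1 h2 => h t h1 (by omega)
    obtain ⟨q, h2, h3, h4⟩ := h (a + D * H) (by omega) le_rfl
    have h5 := ct_pos (p := p) h2 h3 h4
    omega

/-- intermediate value for counts -/
theorem ct_ivt {p : ℕ → Prop} {r a b n : ℕ} (hr : r ≤ a) (hab : a ≤ b) (h1 : ct p r a < n)
    (h2 : n ≤ ct p r b) : ∃ q, a < q ∧ q ≤ b ∧ p q ∧ ct p r q = n := by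
  induction b, hab using Nat.le_induction with
  | base => omega
  | succ b hb ih =>
    by_cases h3 : n ≤ ct p r b
    · obtain ⟨q, h4, h5, h6, h7⟩ := ih h3
      exact ⟨q, h4, by omega, h6, h7⟩
    · rw [ct_add p (show r ≤ b by omega) (Nat.le_succ b)] at h2
      obtain ⟨h4, h5, h6⟩ := ct_one (p := p) (a := b)
      by_cases h7 : p (b + 1)
      · refine ⟨b + 1, by omega, le_rfl, h7, ?_⟩
        rw [ct_add p (show r ≤ b by omega) (Nat.le_succ b)]
        have := h5 h7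
        simp only [Nat.succ_eq_add_one] at *
        omega
      · have := h6 h7
        simp only [Nat.succ_eq_add_one] at *
        omega

/-- among `D` visits there is one with a given count modulo `D` -/
theorem ct_mod {p : ℕ → Prop} {r a b D : ℕ} [NeZero D] (hr : r ≤ a) (hab : a ≤ b)
    (h : ct p r a + D ≤ ct p r b) (i : ZMod D) :
    ∃ q, a < q ∧ q ≤ b ∧ p q ∧ ((ct p r q : ℕ) : ZMod D) = i := by
  have hD : 0 < D := Nat.pos_of_ne_zero (NeZero.ne D)
  set c := ct p r a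
  set j := (i - ((c + 1 : ℕ) : ZMod D)).val with hj
  have hjD : j < D := ZMod.val_lt _
  obtain ⟨q, h1, h2, h3, h4⟩ := ct_ivt (p := p) (n := c + 1 + j) hr hab (by omega) (by omega)
  refine ⟨q, h1, h2, h3, ?_⟩
  rw [h4, Nat.cast_add, hj, ZMod.natCast_zmod_val]
  ring

end count

end Vale.Agent.P329.H409
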