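import Vale.Agent.P329.H409.Track

set_option linter.all false

/-!
The cuts.
-/

namespace Vale.Agent.P329.H409

open Vale.Agent.P329 Vale.Agent.P329.Slow Vale.Agent.P329.Mark

variable {α V : Type} [AddCommGroup V] (P : Par α V)

namespace Par

/-- hypotheses on the code -/
structure Hyp : Prop where
  hD : NeZero P.D
  cod : ∀ i j y c, P.W i = some y → P.U j = some c → c = y + P.T (i + j)
  ful : ∀ k y, ∃ i c, P.W i = some y ∧ P.U (k - i) = some c

def Good (u : List α) (x : V) : Prop :=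
  P.SI u ∧ (P.st u x).1 ∈ P.I ∧ P.W (((P.st u x).2 : ℕ) : ZMod P.D) = some (P.st u x).1

def Okz (z : List α) : Prop :=
  P.SS z ∧ ∃ q j v, P.LPR z q ∧ (P.Cz z q j ∨ P.Fz z q j) ∧
    P.U ((j : ℕ) : ZMod P.D) = some v

variable {P}

theorem Zone.pick [Finite V] (hP : P.Hyp) {g : List α} {N K : ℕ} (hg : P.Zone N K g)
    {e : ℕ} (he1 : g.length < e + K) (he2 : e ≤ g.length) (he3 : P.Pl (g.take e)) :
    ∃ p₀, P.A N K g e p₀ ∧
      (∀ h x, (P.st (h ++ g.take p₀) x).1 ∈ P.I) ∧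
      ∀ i : ZMod P.D, ∃ p, P.A N K g e p ∧ p₀ < p ∧
        ((ct (P.pr g e) p₀ p : ℕ) : ZMod P.D) = i := by
  have hN := hg.hN
  have hm := hg.hm
  have hK := hg.hK
  have hD := hP.hD
  have hl : K + (P.D + 5) * N + 2 * P.m + 1 ≤ g.length := hg.hl
  have hl' : (P.D + 5) * N = P.D * N + 5 * N := Nat.add_mul _ _ _
  rw [hl'] at hl
  have hrec : ∀ t, t + N ≤ g.length → ∃ q', t < q' ∧ q' ≤ t + N ∧ P.pr g e q' := by
    intro t ht
    obtain ⟨q', h1, h2, h3, h4⟩ := hg.vs e he2 he1 he3 t ht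
    exact ⟨q', h1, h2, h4⟩
  obtain ⟨p₁, h1, h2, h3⟩ := hrec (N + 2 * P.m) (by omega)
  obtain ⟨p₀, h4, h5, h6⟩ := hrec (3 * N + 2 * P.m) (by omega)
  refine ⟨p₀, ⟨by omega, by omega, h6⟩, ?_, ?_⟩
  · intro h x
    have hc := hg.run [] he1 he2 he3 (by omega) (by omega) h3 (p₀ + 1) p₀ (by omega)
      (by omega) (by omega) h6
    have hv := hg.vw [] (by omega) (by omega) h3.1
    have hsi : P.SI (h ++ g.take p₁) :=
      (SI_local h (by rw [List.length_take]; omega)).2 hv.si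
    have h7 := (Cz_val hsi hv.ss hc x).1
    have h9 := hv.tk (t := p₀ - p₁) (t' := p₀)
      (by rw [List.length_take, List.length_nil]; omega)
    have h8 : (h ++ g.take p₁) ++ (g.drop p₁ ++ []).take (p₀ - p₁) = h ++ g.take p₀ := by
      rw [List.append_assoc]
      congr 1
      rw [h9, List.nil_append, List.append_nil]
    rw [h8] at h7
    rw [h7]
    have h10 : P.Pl (g.take p₀) := h6.1
    rw [← show Set.range (act P.M (lst (2 * P.m) (g.take p₀))) = P.I from h10]
    refine range_suffix P.M (suffix_lst ?_ ?_) ⟨_, rfl⟩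
    · exact ⟨g.take p₁, by rw [h9, List.nil_append, List.append_nil]⟩
    · rw [List.length_take, List.length_append, List.length_drop]; omega
  · intro i
    have h7 : P.D ≤ ct (P.pr g e) p₀ (p₀ + P.D * N) := by
      refine ct_many P.D ?_
      intro t h8 h9
      exact hrec t (by omega)
    obtain ⟨p, h8, h9, h10, h11⟩ := ct_mod (p := P.pr g e) (r := p₀) (a := p₀)
      (b := p₀ + P.D * N) (D := P.D) le_rfl (Nat.le_add_right _ _)
      (by rw [ct_self]; omega) i
    exact ⟨p, ⟨by omega, by omega, h10⟩, h8, h11⟩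

/-- the state at a later place of the class -/
theorem Zone.st_run [Finite V] {g : List α} {N K : ℕ} (hg : P.Zone N K g) {e p₀ p : ℕ}
    (he1 : g.length < e + K) (he2 : e ≤ g.length) (he3 : P.Pl (g.take e))
    (h1 : P.A N K g e p₀)
    (h2 : P.A N K g e p) (h3 : p₀ < p) (h : List α) (x : V)
    (hI : (P.st (h ++ g.take p₀) x).1 ∈ P.I) :
    (P.st (h ++ g.take p) x).1 = (P.st (h ++ g.take p₀) x).1 ∧
    (P.st (h ++ g.take p) x).2 = (P.st (h ++ g.take p₀) x).2 + ct (P.pr g e) p₀ p := by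
  have hm := hg.hm
  have hK := hg.hK
  obtain ⟨a1, a2, a3⟩ := h1
  obtain ⟨b1, b2, b3⟩ := h2
  have hc := hg.run [] he1 he2 he3 a1 (by omega) a3 (p + 1) p (by omega) (by omega)
    (by omega) b3
  have hv := hg.vw [] (by omega) (by omega) a3.1
  have hsi : P.SI (h ++ g.take p₀) :=
    (SI_local h (by rw [List.length_take]; omega)).2 hv.si
  obtain ⟨h7, h7', h7''⟩ := Cz_val hsi hv.ss hc x
  have h8 : (h ++ g.take p₀) ++ (g.drop p₀ ++ []).take (p - p₀) = h ++ g.take p := by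
    rw [List.append_assoc]
    congr 1
    have h9 := hv.tk (t := p - p₀) (t' := p)
      (by rw [List.length_take, List.length_nil]; omega)
    rw [h9, List.nil_append, List.append_nil]
  rw [h8] at h7 h7'
  exact ⟨by rw [h7, ar_one h7'' hI], h7'⟩

/-- a cut with a given class after any history -/
theorem service [Finite V] (hP : P.Hyp) {g : List α} {N K : ℕ} (hg : P.Zone N K g)
    {e p₀ : ℕ} (he1 : g.length < e + K) (he2 : e ≤ g.length) (he3 : P.Pl (g.take e))
    (h1 : P.A N K g e p₀) (h4 : ∀ i : ZMod P.D, ∃ p, P.A N K g e p ∧ p₀ < p ∧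
      ((ct (P.pr g e) p₀ p : ℕ) : ZMod P.D) = i)
    (h : List α) (x : V) (hI : (P.st (h ++ g.take p₀) x).1 ∈ P.I) (J : ℕ) :
    ∃ p, P.A N K g e p ∧ p₀ < p ∧ P.Good (h ++ g.take p) x ∧ ∃ v, ∀ j,
      j + ct (P.pr g e) (N + 2 * P.m) p = J → P.U ((j : ℕ) : ZMod P.D) = some v := by
  have hm := hg.hm
  have hK := hg.hK
  obtain ⟨n₀, hn₀⟩ : ∃ n₀, n₀ = (P.st (h ++ g.take p₀) x).2 := ⟨_, rfl⟩
  obtain ⟨v₀, hv₀⟩ : ∃ v₀, v₀ = (P.st (h ++ g.take p₀) x).1 := ⟨_, rfl⟩
  obtain ⟨c₀, hc₀⟩ : ∃ c₀, c₀ = ct (P.pr g e) (N + 2 * P.m) p₀ := ⟨_, rfl⟩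
  obtain ⟨i, c, hi, hc⟩ := hP.ful (((J : ℕ) : ZMod P.D) - ((c₀ : ℕ) : ZMod P.D) +
    ((n₀ : ℕ) : ZMod P.D)) v₀
  obtain ⟨p, h5, h6, h7⟩ := h4 (i - ((n₀ : ℕ) : ZMod P.D))
  obtain ⟨h8, h9⟩ := hg.st_run he1 he2 he3 h1 h5 h6 h x hI
  refine ⟨p, h5, h6, ⟨?_, ?_, ?_⟩, c, ?_⟩
  · have h10 := h5.1
    have h11 := h5.2.1
    refine (SI_local h (by rw [List.length_take]; omega)).2 ?_
    exact hg.si (by omega) (by omega) h5.2.2.1
  · rw [h8]; exact hI
  · rw [h8, h9, Nat.cast_add, h7, ← hn₀, ← hv₀, add_sub_cancel]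
    exact hi
  · intro j hj
    rw [← hc]
    congr 1
    have h10 : ct (P.pr g e) (N + 2 * P.m) p = c₀ + ct (P.pr g e) p₀ p := by
      rw [hc₀]
      exact ct_add _ (by have := h1.1; omega) h6.le
    rw [h10] at hj
    have h11 : ((j : ℕ) : ZMod P.D) + (((c₀ : ℕ) : ZMod P.D) + (i - ((n₀ : ℕ) : ZMod P.D))) =
        ((J : ℕ) : ZMod P.D) := by
      rw [← h7, ← Nat.cast_add, ← Nat.cast_add, hj]
    rw [← h11]
    ring

/-- the right side of a cut -/
theorem okz_of [Finite V] {g b : List α} {N K : ℕ} (hg : P.Zone N K g) {S e J p : ℕ}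
    (ht : P.Trk N K g b S e J) (hS : g.length < S + K) (hS2 : S ≤ (g ++ b).length)
    (hS3 : P.Pl ((g ++ b).take S))
    (hS4 : ∀ t, S < t → t ≤ (g ++ b).length → ¬ P.Pl ((g ++ b).take t)) (hp : P.A N K g e p)
    (hU : ∃ v, ∀ j, j + ct (P.pr g e) (N + 2 * P.m) p = J →
      (P.Cz (g.drop p ++ b) (S - p) j ∨ P.Fz (g.drop p ++ b) (S - p) j) →
      P.U ((j : ℕ) : ZMod P.D) = some v) :
    P.Okz (g.drop p ++ b) := by
  have hm := hg.hm
  have hK := hg.hK
  obtain ⟨v, hv⟩ := hU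
  have h1 := hp.1
  have h2 := hp.2.1
  have hvw := hg.vw b (p := p) (by omega) (by omega) hp.2.2.1
  have hgl : (g.take p).length = p := by rw [List.length_take]; omega
  have e2 : ∀ t, p ≤ t → (g.take p).length + (t - p) = ([] : List α).length + t := by
    intro t h6
    rw [hgl, List.length_nil]; omega
  have hL : P.LPR (g.drop p ++ b) (S - p) := by
    refine ⟨?_, (hvw.pl (e2 S (by omega)) hS2 (by omega)).2 hS3, ?_⟩
    · rw [List.length_append, List.length_drop]
      rw [List.length_append] at hS2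
      omega
    · intro t h3 h4 h5
      rw [List.length_append, List.length_drop] at h4
      refine hS4 (p + t) (by omega) (by rw [List.length_append]; omega) ?_
      exact (hvw.pl (t := t) (by rw [hgl, List.length_nil]; omega)
        (by rw [List.length_append]; omega) (by omega)).1 h5
  rcases ht.kind with hk | hk
  · obtain ⟨j, hj, hc⟩ := hk p hp
    exact ⟨hvw.ss, S - p, j, v, hL, Or.inl hc, hv j hj (Or.inl hc)⟩
  · obtain ⟨j, hj, hc⟩ := hk p hp
    exact ⟨hvw.ss, S - p, j, v, hL, Or.inr hc, hv j hj (Or.inr hc)⟩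

theorem Good.val (hP : P.Hyp) {u u' : List α} {x x' v : V} {j : ℕ} (h : P.Good u x)
    (h' : P.Good u' x') (hU : P.U ((j : ℕ) : ZMod P.D) = some v) :
    (P.st u x).1 + P.T (((P.st u x).2 + j : ℕ) : ZMod P.D) =
      (P.st u' x').1 + P.T (((P.st u' x').2 + j : ℕ) : ZMod P.D) := by
  rw [Nat.cast_add, Nat.cast_add, ← hP.cod _ _ _ _ h.2.2 hU, ← hP.cod _ _ _ _ h'.2.2 hU]

/-- the last place of a word with a zone -/
theorem Zone.exists_S {g : List α} {N K : ℕ} (hg : P.Zone N K g)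
    (b : List α) : ∃ S, g.length < S + K ∧ S ≤ (g ++ b).length ∧ P.Pl ((g ++ b).take S) ∧
      ∀ t, S < t → t ≤ (g ++ b).length → ¬ P.Pl ((g ++ b).take t) := by
  obtain ⟨q₀, hq1, hq2, hq4⟩ := hg.ty
  obtain ⟨q, h5, h6, h7, h8⟩ := exists_last (p := fun t => P.Pl ((g ++ b).take t))
    (a := q₀) (n := (g ++ b).length + 1) (by rw [List.length_append]; omega) (by
      show P.Pl ((g ++ b).take q₀)
      rw [List.take_append_of_le_length hq2]; exact hq4)
  exact ⟨q, by omega, by omega, h7, fun t h9 h10 => h8 t h9 (by omega)⟩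

/-- a cut after any history -/
theorem first_cut [Finite V] (hP : P.Hyp) {g : List α} {N K : ℕ} (hg : P.Zone N K g)
    (h b : List α) (x : V) : ∃ p, 0 < p ∧ p ≤ g.length ∧ P.Good (h ++ g.take p) x ∧
      P.Okz (g.drop p ++ b) := by
  obtain ⟨S, h1, h2, h3, h4⟩ := hg.exists_S b
  obtain ⟨e, J, ht⟩ := track hg b (S + 1) S (by omega) h1 h2 h3
  obtain ⟨p₀, a1, a3, a4⟩ := hg.pick hP ht.e1 ht.e2 ht.e3
  obtain ⟨p, b1, b2, b3, v, b4⟩ := service hP hg ht.e1 ht.e2 ht.e3 a1 a4 h x (a3 h x) J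
  refine ⟨p, by omega, by have := b1.2.1; omega, b3, ?_⟩
  exact okz_of hg ht h1 h2 h3 h4 b1 ⟨v, fun j hj _ => b4 j hj⟩

/-- the next cut -/
theorem next_cut [Finite V] (hP : P.Hyp) {g : List α} {N K : ℕ} (hg : P.Zone N K g)
    (u a b : List α) (x : V) (hu : P.Good u x) (hz : P.Okz (a ++ (g ++ b))) :
    ∃ p, 0 < p ∧ p ≤ g.length ∧
      (∀ u' x', P.Good u' x' → P.Good (u' ++ (a ++ g.take p)) x') ∧
      P.Okz (g.drop p ++ b) := by
  have hm := hg.hm
  have hK := hg.hK
  have hN := hg.hN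
  have hl : K + (P.D + 5) * N + 2 * P.m + 1 ≤ g.length := hg.hl
  have hl' : 5 * N ≤ (P.D + 5) * N := Nat.mul_le_mul_right _ (by omega)
  obtain ⟨hss, q, j, v, hq, hcf, hU⟩ := hz
  have vw : ∀ u' x', P.Good u' x' → P.Vw u' (a ++ (g ++ b)) (u' ++ a) (g ++ b) :=
    fun u' x' h => ⟨by rw [List.append_assoc], h.1, hss⟩
  have hv := vw u x hu
  have e1 : ∀ u : List α, ∀ t, u.length + (a.length + t) = (u ++ a).length + t := by
    intro u t; rw [List.length_append]; omega
  obtain ⟨q₀, hq1, hq2, hq4⟩ := hg.ty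
  obtain ⟨c1, c2, c3⟩ := hq
  rw [List.length_append] at c1
  have hql : a.length + q₀ ≤ q := by
    by_contra h
    push Not at h
    refine c3 (a.length + q₀) h (by rw [List.length_append, List.length_append]; omega) ?_
    refine (hv.pl (e1 u q₀) (by rw [List.length_append]; omega) (by omega)).2 ?_
    rw [List.take_append_of_le_length hq2]; exact hq4
  obtain ⟨S, rfl⟩ : ∃ S, q = a.length + S := ⟨q - a.length, by omega⟩
  have h1 : g.length < S + K := by omega
  have h2 : S ≤ (g ++ b).length := by omega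
  have h3 : P.Pl ((g ++ b).take S) := (hv.pl (e1 u S) h2 (by omega)).1 c2
  have h4 : ∀ t, S < t → t ≤ (g ++ b).length → ¬ P.Pl ((g ++ b).take t) := by
    intro t h5 h6 h7
    exact c3 (a.length + t) (by omega) (by rw [List.length_append]; omega)
      ((hv.pl (e1 u t) h6 (by omega)).2 h7)
  obtain ⟨e, J, ht⟩ := track hg b (S + 1) S (by omega) h1 h2 h3
  obtain ⟨p₀, a1, a3, a4⟩ := hg.pick hP ht.e1 ht.e2 ht.e3
  -- views from the cuts of the class
  have hA : ∀ p, P.A N K g e p → P.Vw (g.take p) (g.drop p ++ b) [] (g ++ b) ∧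
      p + K ≤ g.length ∧ N + 2 * P.m < p ∧ (g.take p).length = ([] : List α).length + p := by
    intro p hp
    have d1 := hp.1
    have d2 := hp.2.1
    refine ⟨hg.vw b (by omega) (by omega) hp.2.2.1, d2, d1, ?_⟩
    rw [List.length_take, List.length_nil]; omega
  obtain ⟨w0, w1, w2, w3⟩ := hA p₀ a1
  obtain ⟨j₀, hj₀⟩ := ht.back u a hv ⟨j, hcf⟩ p₀ a1
  have hrun : ∀ p, P.A N K g e p → p₀ < p →
      P.Cz (g.drop p₀ ++ b) (p - p₀) (ct (P.pr g e) p₀ p) := by
    intro p hp h5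
    exact hg.run b ht.e1 ht.e2 ht.e3 w2 (by omega) a1.2.2 (p + 1) p (by omega) (by omega)
      (by have := hp.2.1; omega) hp.2.2
  have hsi : ∀ (u' : List α) p, P.A N K g e p → P.SI (u' ++ (a ++ g.take p)) := by
    intro u' p hp
    obtain ⟨d0, d1, d2, d3⟩ := hA p hp
    rw [← List.append_assoc]
    exact (SI_local _ (by rw [d3, List.length_nil]; omega)).2 d0.si
  have hkt : ∀ p, P.A N K g e p → a ++ g.take p = (a ++ (g ++ b)).take (a.length + p) := by
    intro p hp
    rw [take_len_add, List.take_append_of_le_length (by have := hp.2.1; omega)]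
  rcases hj₀ with hj₀ | hj₀
  · -- no flush between the cut and the zone
    obtain ⟨p, b1, b2, b3⟩ := a4 (-((j₀ : ℕ) : ZMod P.D))
    obtain ⟨d0, d1, d2, d3⟩ := hA p b1
    have hc := comp_CC hv w0 (e1 u p₀) w3 (by omega) hj₀ (hrun p b1 b2)
    rw [show a.length + p₀ + (p - p₀) = a.length + p by omega] at hc
    obtain ⟨j₁, hj₁⟩ : ∃ j₁, j₁ = j₀ + ct (P.pr g e) p₀ p := ⟨_, rfl⟩
    rw [← hj₁] at hc
    have hj1 : ((j₁ : ℕ) : ZMod P.D) = 0 := by rw [hj₁, Nat.cast_add, b3, add_neg_cancel]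
    refine ⟨p, by omega, by omega, ?_, ?_⟩
    · intro u' x' hu'
      obtain ⟨r1, r2, r3⟩ := Cz_val hu'.1 hss hc x'
      rw [ar_one r3 hu'.2.1] at r1
      refine ⟨hsi u' p b1, ?_, ?_⟩
      · rw [hkt p b1, r1]; exact hu'.2.1
      · rw [hkt p b1, r1, r2, Nat.cast_add, hj1, add_zero]
        exact hu'.2.2
    · refine okz_of hg ht h1 h2 h3 h4 b1 ⟨v, fun j₂ hj₂ hk => ?_⟩
      have hj2 : j = j₁ + j₂ := by
        have e3 : a.length + p + (S - p) = a.length + S := by omega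
        rcases hk with hk | hk
        · have hc2 := comp_CC hv d0 (e1 u p) d3 (by omega) hc hk
          rw [e3] at hc2
          rcases hcf with hcf | hcf
          · exact Cz_uniq hcf _ hc2
          · exact absurd hcf (Cz_not_Fz hc2 _)
        · have hc2 := comp_CF hv d0 (e1 u p) d3 (by omega) hc hk
          rw [e3] at hc2
          rcases hcf with hcf | hcf
          · exact absurd hc2 (Cz_not_Fz hcf _)
          · exact Fz_uniq hcf _ hc2
      rw [hj2, Nat.cast_add, hj1, zero_add] at hU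
      exact hU
  · -- the first flush is before the zone
    obtain ⟨p, b1, b2, b3, v', b4⟩ :=
      service hP hg ht.e1 ht.e2 ht.e3 a1 a4 (u ++ a) x (a3 (u ++ a) x) J
    obtain ⟨d0, d1, d2, d3⟩ := hA p b1
    have hc := comp_FC hv w0 (e1 u p₀) w3 (by omega) hj₀ (hrun p b1 b2)
    rw [show a.length + p₀ + (p - p₀) = a.length + p by omega] at hc
    have hj : j = j₀ := by
      have e3 : a.length + p + (S - p) = a.length + S := by omega
      have hF : P.Fz (a ++ (g ++ b)) (a.length + S) j₀ := by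
        rcases ht.kind with hk | hk
        · obtain ⟨j₂, -, hk⟩ := hk p b1
          have hc2 := comp_FC hv d0 (e1 u p) d3 (by omega) hc hk
          rwa [e3] at hc2
        · obtain ⟨j₂, -, hk⟩ := hk p b1
          have hc2 := comp_FF hv d0 (e1 u p) d3 (by omega) hc hk
          rwa [e3] at hc2
      rcases hcf with hcf | hcf
      · exact absurd hF (Cz_not_Fz hcf _)
      · exact Fz_uniq hcf _ hF
    rw [hj] at hU
    refine ⟨p, by omega, by omega, ?_, ?_⟩
    · intro u' x' hu'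
      have r1 := Fz_val hu.1 hu'.1 hss hu.2.1 hu'.2.1 hc (Good.val hP hu hu' hU)
      rw [← hkt p b1] at r1
      rw [List.append_assoc] at b3
      refine ⟨hsi u' p b1, ?_, ?_⟩
      · rw [← r1]; exact b3.2.1
      · rw [← r1]; exact b3.2.2
    · exact okz_of hg ht h1 h2 h3 h4 b1 ⟨v', fun j₂ hj₂ _ => b4 j₂ hj₂⟩

/-- **the cut system** -/
theorem cutSys [Finite V] (hP : P.Hyp) (G : Set (List α)) (hG : ∀ g ∈ G,
      ∃ a g' b N K, g = a ++ (g' ++ b) ∧ P.Zone N K g') (m : ℕ) :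
    CutSys P.Good P.Okz P.Ef {w | Dm G m w} m := by
  have dec : ∀ w : List α, Dm G m w → m < w.length → ∃ a g b N K, w = a ++ (g ++ b) ∧
      P.Zone N K g ∧ a.length + g.length ≤ m := by
    intro w hw hl
    obtain ⟨g, hg, a, b, hab⟩ := hw (w.take m) (List.take_prefix m w).isInfix
      (by rw [List.length_take]; omega)
    obtain ⟨a', g', b', N, K, rfl, hz⟩ := hG g hg
    refine ⟨a ++ a', g', b' ++ (b ++ w.drop m), N, K, ?_, hz, ?_⟩
    · conv_lhs => rw [← List.take_append_drop m w, ← hab]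
      simp only [List.append_assoc]
    · have h1 := congrArg List.length hab
      simp only [List.length_append, List.length_take] at h1 ⊢
      omega
  have cmb : ∀ (a g b : List α) p, (a ++ g.take p) ++ (g.drop p ++ b) = a ++ (g ++ b) := by
    intro a g b p
    rw [List.append_assoc, ← List.append_assoc (g.take p), List.take_append_drop]
  refine ⟨?_, ?_, ?_⟩
  · intro w hw hl x
    obtain ⟨a, g, b, N, K, rfl, hz, hm⟩ := dec w hw hl
    obtain ⟨p, h1, h2, h3, h4⟩ := first_cut hP hz a b x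
    refine ⟨a ++ g.take p, g.drop p ++ b, cmb a g b p, ?_, h3, h4, ?_⟩
    · rw [List.length_append, List.length_take]; omega
    · refine hw.sub ?_
      rw [← cmb a g b p]
      exact (List.suffix_append _ _).isInfix
  · intro u x z hu hz hQ hl
    obtain ⟨a, g, b, N, K, rfl, hZ, hm⟩ := dec z hQ hl
    obtain ⟨p, h1, h2, h3, h4⟩ := next_cut hP hZ u a b x hu hz
    refine ⟨a ++ g.take p, g.drop p ++ b, cmb a g b p, ?_, ?_, h3, h4, ?_⟩
    · intro h
      have := congrArg List.length h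
      rw [List.length_append, List.length_take, List.length_nil] at this
      omega
    · rw [List.length_append, List.length_take]; omega
    · refine hQ.sub ?_
      rw [← cmb a g b p]
      exact (List.suffix_append _ _).isInfix
  · intro u x z hu hz u' x' hu'
    obtain ⟨hss, q, j, v, hq, hcf, hU⟩ := hz
    exact Ef_val hu'.1 hu.1 hss hu'.2.1 hu.2.1 hq hcf (Good.val hP hu' hu hU)

end Par

end Vale.Agent.P329.H409
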