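import Mathlib.Data.Finite.Sigma
import Mathlib.SetTheory.Cardinal.Finite
import Vale.Agent.P329.H409.Serv

set_option linter.all false

/-!
From vector spaces back to automata.
-/

namespace Vale.Agent.P329.H409

open Vale.Agent.P329 Vale.Agent.P329.Slow Vale.Agent.P329.Mark

section spn

variable {α : Type} {n : ℕ}

/-- the vectors supported in `X` -/
def spn (X : Set (Fin n)) : Set (Fin n → ZMod 2) := {v | ∀ i, v i ≠ 0 → i ∈ X}

theorem single_mem_spn {X : Set (Fin n)} {i : Fin n} :
    (Pi.single i 1 : Fin n → ZMod 2) ∈ spn X ↔ i ∈ X := by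
  constructor
  · intro h
    refine h i ?_
    rw [Pi.single_eq_same]
    exact one_ne_zero
  · intro h j hj
    by_cases hij : j = i
    · rw [hij]; exact h
    · exact absurd (Pi.single_eq_of_ne hij 1) hj

theorem spn_inj {X Y : Set (Fin n)} (h : spn X = spn Y) : X = Y := by
  ext i
  rw [← single_mem_spn, h, single_mem_spn]

theorem act_apply (δ : Fin n → α → Fin n) (w : List α) (v : Fin n → ZMod 2) (q' : Fin n) :
    act (push δ) w v q' = ∑ q : Fin n, if w.foldl δ q = q' then v q else 0 := by
  induction w generalizing v with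
  | nil =>
    rw [Finset.sum_eq_single q']
    · rw [if_pos (show ([] : List α).foldl δ q' = q' from rfl)]; rfl
    · intro q _ hq
      exact if_neg hq
    · intro h; exact absurd (Finset.mem_univ _) h
  | cons b w ih =>
    show act (push δ) w (push δ b v) q' = _
    rw [ih]
    have h1 : ∀ q₁ : Fin n, (if w.foldl δ q₁ = q' then push δ b v q₁ else 0) =
        ∑ q : Fin n, if δ q b = q₁ then (if w.foldl δ q₁ = q' then v q else 0) else 0 := by
      intro q₁
      show (if w.foldl δ q₁ = q' then (∑ q : Fin n, if δ q b = q₁ then v q else 0) else 0) = _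
      split
      · rfl
      · simp
    rw [Finset.sum_congr rfl fun q₁ _ => h1 q₁, Finset.sum_comm]
    refine Finset.sum_congr rfl fun q _ => ?_
    rw [Finset.sum_ite_eq, if_pos (Finset.mem_univ _)]
    rfl

theorem image_spn (δ : Fin n → α → Fin n) (w : List α) (X : Set (Fin n)) :
    act (push δ) w '' spn X = spn ((fun q => w.foldl δ q) '' X) := by
  classical
  ext v'
  constructor
  · rintro ⟨v, hv, rfl⟩ q' hq'
    rw [act_apply] at hq'
    obtain ⟨q, -, hq⟩ := Finset.exists_ne_zero_of_sum_ne_zero hq'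
    by_cases h : w.foldl δ q = q'
    · rw [if_pos h] at hq
      exact ⟨q, hv q hq, h⟩
    · rw [if_neg h] at hq
      exact absurd rfl hq
  · intro hv'
    have hσ : ∀ q', ∃ q, q' ∈ (fun q => w.foldl δ q) '' X → q ∈ X ∧ w.foldl δ q = q' := by
      intro q'
      by_cases h : q' ∈ (fun q => w.foldl δ q) '' X
      · obtain ⟨q, h1, h2⟩ := h
        exact ⟨q, fun _ => ⟨h1, h2⟩⟩
      · exact ⟨q', fun h' => absurd h' h⟩
    choose σ hσ using hσ
    refine ⟨fun q => if q ∈ X ∧ σ (w.foldl δ q) = q then v' (w.foldl δ q) else 0, ?_, ?_⟩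
    · intro q hq
      by_contra h
      refine hq ?_
      show (if q ∈ X ∧ σ (w.foldl δ q) = q then v' (w.foldl δ q) else 0) = 0
      rw [if_neg fun h' => h h'.1]
    · funext q'
      rw [act_apply]
      by_cases h : q' ∈ (fun q => w.foldl δ q) '' X
      · obtain ⟨h1, h2⟩ := hσ q' h
        rw [Finset.sum_eq_single (σ q')]
        · rw [if_pos h2, h2, if_pos ⟨h1, rfl⟩]
        · intro q _ hq
          split
          · rename_i h3
            rw [if_neg]
            rintro ⟨h4, h5⟩
            rw [h3] at h5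
            exact hq h5.symm
          · rfl
        · intro h3; exact absurd (Finset.mem_univ _) h3
      · rw [Finset.sum_eq_zero]
        · by_contra h3
          exact h (hv' q' fun h4 => h3 h4.symm)
        · intro q _
          split
          · rename_i h3
            rw [if_neg]
            rintro ⟨h4, h5⟩
            exact h ⟨q, h4, h3⟩
          · rfl

theorem range_spn (δ : Fin n → α → Fin n) (w : List α) :
    Set.range (act (push δ) w) = spn (Set.range fun q => w.foldl δ q) := by
  rw [← Set.image_univ, ← Set.image_univ, ← image_spn]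
  congr 1
  ext v
  exact ⟨fun _ i _ => trivial, fun _ => trivial⟩

theorem ncard_spn (X : Set (Fin n)) : (spn X).ncard = 2 ^ X.ncard := by
  classical
  have e : spn X ≃ (X → ZMod 2) :=
    { toFun := fun v i => v.1 i.1
      invFun := fun f => ⟨fun i => if h : i ∈ X then f ⟨i, h⟩ else 0, by
        intro i hi
        by_contra h
        exact hi (dif_neg h)⟩
      left_inv := by
        rintro ⟨v, hv⟩
        apply Subtype.ext
        funext i
        show (if h : i ∈ X then v i else 0) = v i
        split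
        · rfl
        · rename_i h
          by_contra h2
          exact h (hv i fun h3 => h2 h3.symm)
      right_inv := by
        intro f
        funext i
        show (if h : i.1 ∈ X then f ⟨i.1, h⟩ else 0) = f i
        rw [dif_pos i.2] }
  rw [← Nat.card_coe_set_eq, Nat.card_congr e, Nat.card_fun, Nat.card_coe_set_eq]
  simp

end spn

/-- the set of states reached by `x` -/
def img {α : Type} {n : ℕ} (A : DFA α (Fin n)) (x : List α) : Set (Fin n) :=
  Set.range fun q => A.evalFrom q x

/-- `q` is a place of `g`: the last `2 * m` letters before `q` map the set of states onto `I` -/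
def Place {α : Type} {n : ℕ} (A : DFA α (Fin n)) (I : Set (Fin n)) (m : ℕ) (g : List α)
    (q : ℕ) : Prop :=
  2 * m ≤ q ∧ q ≤ g.length ∧ img A ((g.take q).drop (q - 2 * m)) = I

/-- `q` is a place of the class of `e` -/
def Same {α : Type} {n : ℕ} (A : DFA α (Fin n)) (I : Set (Fin n)) (m : ℕ) (g : List α)
    (e q : ℕ) : Prop :=
  Place A I m g q ∧ ∀ s ∈ I, A.evalFrom s (g.drop q) = A.evalFrom s (g.drop e)

/-- zones -/
def Zone {α : Type} {n : ℕ} (A : DFA α (Fin n)) (I : Set (Fin n)) (m : ℕ) (B : Set (List α))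
    (ρ : ℕ) (g : List α) : Prop :=
  ∃ N K : ℕ, 0 < N ∧ 2 * m ≤ N ∧ N ≤ K ∧ K + ρ * N ≤ g.length ∧
    (∀ x : List α, x <:+: g → x.length = m ∨ x = g → (img A x).ncard = I.ncard) ∧
    (∃ b ∈ B, b <:+: g.drop (g.length - K)) ∧
    (∃ e, g.length < e + K ∧ Place A I m g e) ∧
    ∀ e, g.length < e + K → Place A I m g e →
      (∀ t, t + N ≤ g.length → ∃ q, t < q ∧ q ≤ t + N ∧ Same A I m g e q) ∧
      ∀ q s, q < s → Same A I m g e q → Same A I m g e s →
        (∀ t, q < t → t < s → ¬ Same A I m g e t) →
        ¬ ∃ b ∈ B, b <:+: (g.take s).drop q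

section zone

variable {α : Type} {n : ℕ} (A : DFA α (Fin n)) (I : Set (Fin n)) (m : ℕ) (B : Set (List α))
  (D : ℕ) (T : ZMod D → (Fin n → ZMod 2)) (W U : ZMod D → Option (Fin n → ZMod 2))

/-- the parameters -/
def prm : Par α (Fin n → ZMod 2) where
  M := push A.step
  I := spn I
  m := m
  B := B
  D := D
  T := T
  W := W
  U := U

variable {A I m B D T W U}

theorem prm_Pl {h : List α} : (prm A I m B D T W U).Pl h ↔ img A (lst (2 * m) h) = I := by
  show Set.range (act (push A.step) (lst (2 * m) h)) = spn I ↔ _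
  rw [range_spn]
  constructor
  · intro h1; exact spn_inj h1
  · intro h1; rw [← h1]; rfl

theorem prm_ar {z z' : List α} : (prm A I m B D T W U).ar z = (prm A I m B D T W U).ar z' ↔
    ∀ s ∈ I, A.evalFrom s z = A.evalFrom s z' := by
  constructor
  · intro h s hs
    have h1 := congrFun h ⟨Pi.single s 1, single_mem_spn.2 hs⟩
    have h2 : act (push A.step) z (Pi.single s 1) = act (push A.step) z' (Pi.single s 1) := h1
    rw [act_single, act_single] at h2
    by_contra h3
    have h4 := congrFun h2 (z.foldl A.step s)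
    rw [Pi.single_eq_same, Pi.single_eq_of_ne] at h4
    · exact one_ne_zero h4
    · exact h3
  · intro h
    funext ⟨v, hv⟩
    show act (push A.step) z v = act (push A.step) z' v
    funext q'
    rw [act_apply, act_apply]
    refine Finset.sum_congr rfl fun q _ => ?_
    by_cases hq : v q = 0
    · rw [hq, ite_self, ite_self]
    · have h1 : z.foldl A.step q = z'.foldl A.step q := h q (hv q hq)
      rw [h1]

theorem place_iff {g : List α} {q : ℕ} (h1 : 2 * m ≤ q) (h2 : q ≤ g.length) :
    Place A I m g q ↔ (prm A I m B D T W U).Pl (g.take q) := by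
  rw [prm_Pl]
  unfold Place lst
  rw [List.length_take, min_eq_left h2]
  exact ⟨fun h => h.2.2, fun h => ⟨h1, h2, h⟩⟩

theorem same_iff {g : List α} {e q : ℕ} (h1 : 2 * m ≤ q) (h2 : q ≤ g.length) :
    Same A I m g e q ↔ (prm A I m B D T W U).pr g e q := by
  unfold Same Par.pr
  rw [place_iff h1 h2 (B := B) (D := D) (T := T) (W := W) (U := U), prm_ar]

theorem Zone.prm {g : List α} {ρ : ℕ} (hρ : D + 7 ≤ ρ) (hg : Zone A I m B ρ g) :
    ∃ N K, (prm A I m B D T W U).Zone N K g := by
  obtain ⟨N, K, h1, h2, h3, h4, h5, h6, ⟨e₀, h7, h8⟩, h9⟩ := hg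
  have hl : (D + 7) * N ≤ ρ * N := Nat.mul_le_mul_right _ hρ
  have hl2 : (D + 7) * N = (D + 5) * N + 2 * N := by ring
  have hl3 : 0 ≤ (D + 5) * N := Nat.zero_le _
  have hlen : K + (D + 5) * N + 2 * m + 1 ≤ g.length := by omega
  refine ⟨N, K, ?_, ?_, h6, ?_, ?_, ?_, h1, h2, h3, hlen⟩
  · intro x hx hxl
    show (Set.range (act (push A.step) x)).ncard = (spn I).ncard
    rw [range_spn, ncard_spn, ncard_spn]
    congr 1
    exact h5 x hx (Or.inl hxl)
  · show (Set.range (act (push A.step) g)).ncard = (spn I).ncard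
    rw [range_spn, ncard_spn, ncard_spn]
    congr 1
    exact h5 g List.infix_rfl (Or.inr rfl)
  · exact ⟨e₀, h7, h8.2.1, (place_iff h8.1 h8.2.1).1 h8⟩
  · intro e he1 he2 he3 t ht
    have he4 : Place A I m g e := (place_iff (by omega) he1).2 he3
    obtain ⟨q, h10, h11, h12⟩ := (h9 e he2 he4).1 t ht
    have h13 := h12.1
    exact ⟨q, h10, h11, h13.1, (same_iff h13.1 h13.2.1).1 h12⟩
  · intro e he1 he2 he3 q s hq hqs hs h10 h11 h12
    have he4 : Place A I m g e := (place_iff (by omega) he1).2 he3
    have hq' : 2 * m ≤ q := hq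
    refine (h9 e he2 he4).2 q s hqs ((same_iff hq' (by omega)).2 h10)
      ((same_iff (by omega) hs).2 h11) ?_
    intro t h13 h14 h15
    exact h12 t h13 h14 ((same_iff (by omega) (by omega)).1 h15)

end zone

theorem dfa_lin {α : Type} {n : ℕ} {P : Set (List α) → Prop} (A : DFA α (Fin n))
    {Q : Set (List α)}
    (h : ∀ (x : Fin n → ZMod 2) (F : Set (Fin n → ZMod 2)),
      P {w : List α | w ∈ Q ∧ act (push A.step) w x ∈ F}) :
    P {w : List α | w ∈ A.accepts ∧ w ∈ Q} := by
  have h5 := h (Pi.single A.start 1) {v | ∃ q ∈ A.accept, v = Pi.single q 1}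
  convert h5 using 1
  ext w
  constructor
  · rintro ⟨hw, hs⟩
    exact ⟨hs, w.foldl A.step A.start, hw, by rw [act_single]⟩
  · rintro ⟨hs, q, hq, hw⟩
    refine ⟨?_, hs⟩
    rw [act_single] at hw
    have h7 : w.foldl A.step A.start = q := by
      by_contra hne
      have h8 := congrFun hw q
      rw [Pi.single_eq_same, Pi.single_eq_of_ne (Ne.symm hne)] at h8
      exact zero_ne_one h8
    show w.foldl A.step A.start ∈ A.accept
    rw [h7]; exact hq

/-- **zones and automata** -/
theorem zone_SH (n : ℕ) : ∃ ρ : ℕ, ∀ (α : Type) [Finite α] (A : DFA α (Fin n)) (I : Set (Fin n))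
    (m C : ℕ) (B : Set (List α)),
    SH 1 {w : List α | w ∈ A.accepts ∧ Dm {g | Zone A I m B ρ g} C w} := by
  obtain ⟨D, hD, W, U, T, h1, h2, -, -⟩ := exists_coding n
  refine ⟨D + 7, fun α _ A I m C B => ?_⟩
  have hyp : (prm A I m B D T W U).Hyp := ⟨⟨hD.ne'⟩, h1, h2⟩
  refine dfa_lin (P := fun X => SH 1 X) (Q := {w | Dm {g | Zone A I m B (D + 7) g} C w}) A
    fun x F => ?_
  refine (Par.cutSys hyp {g | Zone A I m B (D + 7) g} ?_ C).cls_act cls_SH (push A.step)
    (Cls.dm cls_SH _ C) Par.Ef_act x F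
  intro g hg
  obtain ⟨N, K, hz⟩ := Zone.prm (T := T) (W := W) (U := U) le_rfl hg
  exact ⟨[], g, [], N, K, by simp, hz⟩

end Vale.Agent.P329.H409
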