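import Mathlib.Data.Set.Card
import Vale.Agent.P329.H409.Base

set_option linter.all false

/-!
Places and arrows.
-/

namespace Vale.Agent.P329.H409

open Vale.Agent.P329 Vale.Agent.P329.Slow Vale.Agent.P329.Mark

/-- the parameters of the construction -/
structure Par (α V : Type) [AddCommGroup V] where
  M : α → V →+ V
  I : Set V
  m : ℕ
  /-- blockers -/
  B : Set (List α)
  D : ℕ
  T : ZMod D → V
  W : ZMod D → Option V
  U : ZMod D → Option V

section lst

variable {α : Type}

/-- the last `k` letters -/
def lst (k : ℕ) (h : List α) : List α := h.drop (h.length - k)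

theorem lst_suffix (k : ℕ) (h : List α) : lst k h <:+ h := List.drop_suffix _ _

theorem lst_length {k : ℕ} {h : List α} (hk : k ≤ h.length) : (lst k h).length = k := by
  unfold lst
  rw [List.length_drop]; omega

theorem lst_append {k : ℕ} (u : List α) {h : List α} (hk : k ≤ h.length) :
    lst k (u ++ h) = lst k h := by
  unfold lst
  rw [List.length_append, List.drop_append, List.drop_eq_nil_of_le (by omega), List.nil_append]
  congr 1
  omega

theorem lst_append' {k : ℕ} (u : List α) {h : List α} (hk : h.length ≤ k) :
    lst k (u ++ h) = lst (k - h.length) u ++ h := by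
  unfold lst
  rw [List.length_append, List.drop_append_of_le_length (by omega)]
  congr 2
  omega

theorem suffix_lst {k : ℕ} {h v : List α} (hv : v <:+ h) (hk : k ≤ v.length) : lst k h <:+ v := by
  refine List.suffix_of_suffix_length_le (lst_suffix k h) hv ?_
  rw [lst_length (hk.trans hv.length_le)]
  exact hk

theorem take_len_add (u z : List α) (t : ℕ) : (u ++ z).take (u.length + t) = u ++ z.take t := by
  rw [List.take_append, List.take_of_length_le (by omega), Nat.add_sub_cancel_left]

theorem drop_len_add (u z : List α) (t : ℕ) : (u ++ z).drop (u.length + t) = z.drop t := by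
  rw [List.drop_append, List.drop_eq_nil_of_le (by omega), Nat.add_sub_cancel_left,
    List.nil_append]

theorem take_drop_take (g : List α) {q t : ℕ} (h : q ≤ t) :
    (g.take t).drop q ++ g.drop t = g.drop q := by
  conv_rhs => rw [← List.take_append_drop t g]
  rcases Nat.le_total t g.length with h1 | h1
  · rw [List.drop_append_of_le_length (by rw [List.length_take]; omega)]
  · rw [List.drop_eq_nil_of_le h1, List.append_nil, List.append_nil]

theorem take_take_drop (g : List α) {q t : ℕ} (h : q ≤ t) :
    g.take q ++ (g.take t).drop q = g.take t := by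
  conv_rhs => rw [← List.take_append_drop q (g.take t)]
  rw [List.take_take, min_eq_left h]

end lst

section range

variable {α V : Type} [AddCommGroup V]

theorem range_append (M : α → V →+ V) (x y : List α) :
    Set.range (act M (x ++ y)) = act M y '' Set.range (act M x) := by
  ext v
  constructor
  · rintro ⟨a, rfl⟩
    exact ⟨_, ⟨a, rfl⟩, (act_append _ _ _ _).symm⟩
  · rintro ⟨_, ⟨a, rfl⟩, rfl⟩
    exact ⟨a, act_append _ _ _ _⟩

theorem range_suffix (M : α → V →+ V) {x y : List α} (h : x <:+ y) :
    Set.range (act M y) ⊆ Set.range (act M x) := by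
  obtain ⟨t, rfl⟩ := h
  rintro _ ⟨a, rfl⟩
  exact ⟨_, (act_append _ _ _ _).symm⟩

end range

variable {α V : Type} [AddCommGroup V] (P : Par α V)

namespace Par

/-- the action of a word on the set `I` -/
def ar (z : List α) : P.I → V := fun x => act P.M z x

/-- transport of arrows -/
def tr (z : List α) (f : P.I → V) : P.I → V := fun x => act P.M z (f x)

/-- `x` contains a blocker -/
def Bk (x : List α) : Prop := ∃ b ∈ P.B, b <:+: x

/-- places: the image of the last `2 m` letters is `I` -/
def Pl (h : List α) : Prop := Set.range (act P.M (lst (2 * P.m) h)) = P.I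

/-- places seen from the right side of a cut -/
def PlR (z : List α) : Prop :=
  (z.length ≤ 2 * P.m ∧ act P.M z '' P.I = P.I) ∨ (2 * P.m < z.length ∧ P.Pl z)

/-- the condition on the left side of a cut -/
structure SI (u : List α) : Prop where
  len : 2 * P.m ≤ u.length
  img : ∀ t, P.m ≤ t → t ≤ 2 * P.m → Set.range (act P.M (lst t u)) = P.I

/-- the condition on the right side of a cut -/
structure SS (z : List α) : Prop where
  len : 2 * P.m ≤ z.length
  img : Set.range (act P.M (z.take P.m)) = act P.M (z.take P.m) '' P.I

variable {P}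

theorem Bk.mono {x y : List α} (h : P.Bk x) (hxy : x <:+: y) : P.Bk y := by
  obtain ⟨b, hb, h1⟩ := h
  exact ⟨b, hb, h1.trans hxy⟩

theorem tr_nil (f : P.I → V) : P.tr [] f = f := rfl

theorem ar_append (z z' : List α) : P.ar (z ++ z') = P.tr z' (P.ar z) := by
  funext x
  exact act_append _ _ _ _

theorem tr_append (z z' : List α) (f : P.I → V) : P.tr (z ++ z') f = P.tr z' (P.tr z f) := by
  funext x
  exact act_append _ _ _ _

theorem tr_one (z : List α) : P.tr z (P.ar []) = P.ar z := rfl

theorem ar_one {z : List α} (h : P.ar z = P.ar []) {y : V} (hy : y ∈ P.I) :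
    act P.M z y = y := congrFun h ⟨y, hy⟩

theorem Pl_local (u : List α) {h : List α} (hk : 2 * P.m ≤ h.length) :
    P.Pl (u ++ h) ↔ P.Pl h := by
  unfold Pl
  rw [lst_append u hk]

theorem SI.pl {u : List α} (h : P.SI u) : P.Pl u := h.img (2 * P.m) (by omega) le_rfl

theorem SI_local (u : List α) {k : List α} (hk : 2 * P.m ≤ k.length) :
    P.SI (u ++ k) ↔ P.SI k := by
  constructor
  · intro h
    refine ⟨hk, fun t h1 h2 => ?_⟩
    rw [← lst_append u (show t ≤ k.length by omega)]
    exact h.img t h1 h2
  · intro h
    refine ⟨by rw [List.length_append]; omega, fun t h1 h2 => ?_⟩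
    rw [lst_append u (show t ≤ k.length by omega)]
    exact h.img t h1 h2

theorem PlR_nil : P.PlR [] := by
  refine Or.inl ⟨Nat.zero_le _, ?_⟩
  ext v
  constructor
  · rintro ⟨x, hx, rfl⟩; exact hx
  · intro hv; exact ⟨v, hv, rfl⟩

theorem PlR_long {z : List α} (h : 2 * P.m < z.length) : P.PlR z ↔ P.Pl z := by
  unfold PlR
  constructor
  · rintro (⟨h2, -⟩ | ⟨-, h2⟩)
    · omega
    · exact h2
  · intro h2; exact Or.inr ⟨h, h2⟩

theorem SS.of_pfx {z : List α} (y : List α) (h : P.SS z) : P.SS (z ++ y) := by
  have h1 := h.len
  refine ⟨by rw [List.length_append]; omega, ?_⟩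
  rw [List.take_append_of_le_length (by omega)]
  exact h.img

/-- places after a cut are visible from the right -/
theorem SI.pl_iff {u z : List α} (h : P.SI u) (hz : P.SS z) {t : ℕ}
    (ht : t ≤ z.length) : P.Pl (u ++ z.take t) ↔ P.PlR (z.take t) := by
  have hl : (z.take t).length = t := by rw [List.length_take]; omega
  by_cases h1 : 2 * P.m < t
  · rw [Pl_local u (by omega)]
    unfold PlR
    rw [hl]
    constructor
    · intro h2; exact Or.inr ⟨h1, h2⟩
    · rintro (⟨h2, -⟩ | ⟨-, h2⟩)
      · omega
      · exact h2
  · push Not at h1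
    have key : Set.range (act P.M (lst (2 * P.m) (u ++ z.take t))) =
        act P.M (z.take t) '' P.I := by
      rw [lst_append' u (by omega), hl, range_append]
      rcases Nat.le_total t P.m with h2 | h2
      · rw [h.img _ (by omega) (by omega)]
      · apply Set.Subset.antisymm
        · rintro _ ⟨y, -, rfl⟩
          have e : z.take t = z.take P.m ++ (z.take t).drop P.m := by
            conv_lhs => rw [← List.take_append_drop P.m (z.take t)]
            rw [List.take_take, min_eq_left h2]
          rw [e, act_append]
          have h3 : act P.M (z.take P.m) y ∈ act P.M (z.take P.m) '' P.I := by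
            rw [← hz.img]; exact ⟨y, rfl⟩
          obtain ⟨i, hi, h4⟩ := h3
          exact ⟨i, hi, by rw [act_append, h4]⟩
        · refine Set.image_mono ?_
          have h3 := h.img (2 * P.m) (by omega) le_rfl
          conv_lhs => rw [← h3]
          refine range_suffix _ (suffix_lst (lst_suffix _ _) ?_)
          rw [lst_length h.len]
          omega
    unfold Pl PlR
    rw [key, hl]
    constructor
    · intro h2; exact Or.inl ⟨h1, h2⟩
    · rintro (⟨-, h2⟩ | ⟨h2, -⟩)
      · exact h2
      · omega

end Par

end Vale.Agent.P329.H409
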