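import Mathlib.Data.Nat.Find
import Vale.Agent.P329.H409.Word

set_option linter.all false

/-!
Lineages: each place inherits from the last place of the same class, if this is not too old, and
otherwise from the last place.
-/

namespace Vale.Agent.P329.H409

open Vale.Agent.P329 Vale.Agent.P329.Slow Vale.Agent.P329.Mark

theorem exists_last {p : ℕ → Prop} {a n : ℕ} (h1 : a < n) (h2 : p a) :
    ∃ q, a ≤ q ∧ q < n ∧ p q ∧ ∀ t, q < t → t < n → ¬ p t := by
  classical
  have h3 : a ≤ n - 1 := by omega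
  refine ⟨Nat.findGreatest p (n - 1), Nat.le_findGreatest h3 h2, ?_,
    Nat.findGreatest_spec (P := p) h3 h2, ?_⟩
  · have := Nat.findGreatest_le (P := p) (n - 1)
    omega
  · intro t h4 h5
    exact Nat.findGreatest_is_greatest (P := p) h4 (by omega)

variable {α V : Type} [AddCommGroup V] (P : Par α V)

namespace Par

/-- `q` is a place of the same class as the end of `h`, with no blocker in between -/
def Sm (h : List α) (q : ℕ) : Prop :=
  q < h.length ∧ ¬ P.Bk (h.drop q) ∧ P.Pl h ∧ P.Pl (h.take q) ∧ P.ar (h.drop q) = P.ar []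

def LSm (h : List α) (q : ℕ) : Prop := P.Sm h q ∧ ∀ t, q < t → t < h.length → ¬ P.Sm h t

/-- the last place before the end -/
def LPl (h : List α) (q : ℕ) : Prop :=
  q < h.length ∧ P.Pl (h.take q) ∧ ∀ t, q < t → t < h.length → ¬ P.Pl (h.take t)

/-- the last place -/
def LP (h : List α) (q : ℕ) : Prop :=
  q ≤ h.length ∧ P.Pl (h.take q) ∧ ∀ t, q < t → t ≤ h.length → ¬ P.Pl (h.take t)

/-- the flush -/
def fl (s : V × ℕ) : V := s.1 + P.T ((s.2 : ℕ) : ZMod P.D)

open Classical in
/-- the state of a place -/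
noncomputable def st (h : List α) (x : V) : V × ℕ :=
  if h1 : ∃ q, P.LSm h q then
    (act P.M (h.drop h1.choose) (st (h.take h1.choose) x).1, (st (h.take h1.choose) x).2 + 1)
  else if h2 : ∃ q, P.LPl h q then
    (act P.M (h.drop h2.choose) (P.fl (st (h.take h2.choose) x)), 0)
  else (act P.M h x, 0)
termination_by h.length
decreasing_by
  · rw [List.length_take]; have := h1.choose_spec.1.1; omega
  · rw [List.length_take]; have := h2.choose_spec.1; omega

open Classical in
/-- the final value -/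
noncomputable def Ef (h : List α) (x : V) : V :=
  if h1 : ∃ q, P.LP h q then act P.M (h.drop h1.choose) (P.fl (P.st (h.take h1.choose) x))
  else act P.M h x

variable {P}

theorem LSm.uniq {h : List α} {q q' : ℕ} (h1 : P.LSm h q) (h2 : P.LSm h q') : q = q' := by
  rcases Nat.lt_trichotomy q q' with h3 | h3 | h3
  · exact absurd h2.1 (h1.2 q' h3 h2.1.1)
  · exact h3
  · exact absurd h1.1 (h2.2 q h3 h1.1.1)

theorem LPl.uniq {h : List α} {q q' : ℕ} (h1 : P.LPl h q) (h2 : P.LPl h q') : q = q' := by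
  rcases Nat.lt_trichotomy q q' with h3 | h3 | h3
  · exact absurd h2.2.1 (h1.2.2 q' h3 h2.1)
  · exact h3
  · exact absurd h1.2.1 (h2.2.2 q h3 h1.1)

theorem LP.uniq {h : List α} {q q' : ℕ} (h1 : P.LP h q) (h2 : P.LP h q') : q = q' := by
  rcases Nat.lt_trichotomy q q' with h3 | h3 | h3
  · exact absurd h2.2.1 (h1.2.2 q' h3 h2.1)
  · exact h3
  · exact absurd h1.2.1 (h2.2.2 q h3 h1.1)

theorem Sm.last {h : List α} {q : ℕ} (h1 : P.Sm h q) : ∃ q', q ≤ q' ∧ P.LSm h q' := by
  obtain ⟨q', h2, h3, h4, h5⟩ := exists_last (p := P.Sm h) h1.1 h1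
  exact ⟨q', h2, h4, h5⟩

theorem st_same {h : List α} {q : ℕ} (hq : P.LSm h q) (x : V) :
    P.st h x = (act P.M (h.drop q) (P.st (h.take q) x).1, (P.st (h.take q) x).2 + 1) := by
  have h1 : ∃ q, P.LSm h q := ⟨q, hq⟩
  rw [st, dif_pos h1, hq.uniq h1.choose_spec]

theorem st_new {h : List α} {q : ℕ} (hn : ¬ ∃ q, P.Sm h q) (hq : P.LPl h q) (x : V) :
    P.st h x = (act P.M (h.drop q) (P.fl (P.st (h.take q) x)), 0) := by
  have h1 : ¬ ∃ q, P.LSm h q := fun ⟨q, h⟩ => hn ⟨q, h.1⟩
  have h2 : ∃ q, P.LPl h q := ⟨q, hq⟩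
  rw [st, dif_neg h1, dif_pos h2, hq.uniq h2.choose_spec]

theorem Ef_eq {h : List α} {q : ℕ} (hq : P.LP h q) (x : V) :
    P.Ef h x = act P.M (h.drop q) (P.fl (P.st (h.take q) x)) := by
  have h1 : ∃ q, P.LP h q := ⟨q, hq⟩
  rw [Ef, dif_pos h1, hq.uniq h1.choose_spec]

theorem st_lin (n : ℕ) : ∀ (h : List α) (x : V), h.length < n →
    (P.st h x).2 = (P.st h 0).2 ∧ (P.st h x).1 - (P.st h 0).1 = act P.M h x := by
  induction n with
  | zero => intro h x hl; omega
  | succ n ih =>
    intro h x hl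
    by_cases h1 : ∃ q, P.LSm h q
    · obtain ⟨q, hq⟩ := h1
      have h2 := ih (h.take q) x (by rw [List.length_take]; have := hq.1.1; omega)
      rw [st_same hq, st_same hq 0]
      refine ⟨by rw [h2.1], ?_⟩
      dsimp only
      rw [← act_sub, h2.2, ← act_append, List.take_append_drop]
    · by_cases h2 : ∃ q, P.LPl h q
      · obtain ⟨q, hq⟩ := h2
        have h2 := ih (h.take q) x (by rw [List.length_take]; have := hq.1; omega)
        have hn : ¬ ∃ q, P.Sm h q := by
          rintro ⟨t, ht⟩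
          obtain ⟨t', -, h3⟩ := ht.last
          exact h1 ⟨t', h3⟩
        rw [st_new hn hq, st_new hn hq 0]
        refine ⟨rfl, ?_⟩
        dsimp only
        rw [← act_sub]
        unfold fl
        rw [h2.1, add_sub_add_right_eq_sub, h2.2, ← act_append, List.take_append_drop]
      · rw [st, dif_neg h1, dif_neg h2, st, dif_neg h1, dif_neg h2]
        refine ⟨rfl, ?_⟩
        dsimp only
        rw [act_zero, sub_zero]

theorem Ef_act (h : List α) (x : V) : P.Ef h x - P.Ef h 0 = act P.M h x := by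
  by_cases h1 : ∃ q, P.LP h q
  · obtain ⟨q, hq⟩ := h1
    rw [Ef_eq hq, Ef_eq hq 0, ← act_sub]
    have h2 := st_lin (P := P) _ (h.take q) x (Nat.lt_succ_self _)
    unfold fl
    rw [h2.1, add_sub_add_right_eq_sub, h2.2, ← act_append, List.take_append_drop]
  · rw [Ef, dif_neg h1, Ef, dif_neg h1, act_zero, sub_zero]

/-! ### the right side of a cut -/

variable (P) in
def SmR (z : List α) (s q : ℕ) : Prop :=
  q < s ∧ s ≤ z.length ∧ ¬ P.Bk ((z.take s).drop q) ∧ P.PlR (z.take s) ∧ P.PlR (z.take q) ∧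
    P.ar ((z.take s).drop q) = P.ar []

variable (P) in
def LSmR (z : List α) (s q : ℕ) : Prop := P.SmR z s q ∧ ∀ t, q < t → t < s → ¬ P.SmR z s t

variable (P) in
def NwR (z : List α) (s q : ℕ) : Prop :=
  q < s ∧ s ≤ z.length ∧ P.Bk (z.take s) ∧ (∀ t, ¬ P.SmR z s t) ∧ P.PlR (z.take q) ∧
    ∀ t, q < t → t < s → ¬ P.PlR (z.take t)

theorem SI.sm_iff {u z : List α} (h : P.SI u) (hz : P.SS z) {s q : ℕ} (hs : s ≤ z.length) :
    P.Sm (u ++ z.take s) (u.length + q) ↔ P.SmR z s q := by
  have hl : (z.take s).length = s := by rw [List.length_take]; omega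
  unfold Sm SmR
  rw [List.length_append, hl, take_len_add, drop_len_add, h.pl_iff hz hs]
  constructor
  · rintro ⟨h1, h2, h3, h4, h5⟩
    have h6 : q ≤ s := by omega
    rw [List.take_take, min_eq_left h6, h.pl_iff hz (by omega)] at h4
    exact ⟨by omega, hs, h2, h3, h4, h5⟩
  · rintro ⟨h1, h2, h3, h4, h5, h6⟩
    refine ⟨by omega, h3, h4, ?_, h6⟩
    rw [List.take_take, min_eq_left h1.le, h.pl_iff hz (by omega)]
    exact h5

theorem SI.lsm {u z : List α} (h : P.SI u) (hz : P.SS z) {s q : ℕ} (hq : P.LSmR z s q) :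
    P.LSm (u ++ z.take s) (u.length + q) := by
  have hs := hq.1.2.1
  have hl : (z.take s).length = s := by rw [List.length_take]; omega
  refine ⟨(h.sm_iff hz hs).2 hq.1, fun t h1 h2 h3 => ?_⟩
  rw [List.length_append, hl] at h2
  obtain ⟨t, rfl⟩ : ∃ t', t = u.length + t' := ⟨t - u.length, by omega⟩
  exact hq.2 t (by omega) (by omega) ((h.sm_iff hz hs).1 h3)

theorem SI.nw {u z : List α} (h : P.SI u) (hz : P.SS z) {s q : ℕ} (hq : P.NwR z s q) :
    (¬ ∃ t, P.Sm (u ++ z.take s) t) ∧ P.LPl (u ++ z.take s) (u.length + q) := by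
  obtain ⟨h1, hs, h3, h4, h5, h6⟩ := hq
  have hl : (z.take s).length = s := by rw [List.length_take]; omega
  refine ⟨?_, ?_, ?_, ?_⟩
  · rintro ⟨t, ht⟩
    have h7 : u.length ≤ t := by
      by_contra h8
      push Not at h8
      refine ht.2.1 (h3.mono ?_)
      rw [List.drop_append_of_le_length h8.le]
      exact (List.suffix_append _ _).isInfix
    obtain ⟨t, rfl⟩ : ∃ t', t = u.length + t' := ⟨t - u.length, by omega⟩
    exact h4 t ((h.sm_iff hz hs).1 ht)
  · rw [List.length_append, hl]; omega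
  · rw [take_len_add, List.take_take, min_eq_left h1.le, h.pl_iff hz (by omega)]
    exact h5
  · intro t h7 h8 h9
    rw [List.length_append, hl] at h8
    obtain ⟨t, rfl⟩ : ∃ t', t = u.length + t' := ⟨t - u.length, by omega⟩
    rw [take_len_add, List.take_take, min_eq_left (by omega), h.pl_iff hz (by omega)] at h9
    exact h6 t (by omega) (by omega) h9

variable (P) in
/-- only steps inside the class of the cut -/
inductive Cz (z : List α) : ℕ → ℕ → Prop
  | nil : Cz z 0 0
  | same (s q j : ℕ) : P.LSmR z s q → Cz z q j → Cz z s (j + 1)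

variable (P) in
/-- the first flush after the cut happens after `j` steps -/
inductive Fz (z : List α) : ℕ → ℕ → Prop
  | first (s q j : ℕ) : P.NwR z s q → P.Cz z q j → Fz z s j
  | same (s q j : ℕ) : P.LSmR z s q → Fz z q j → Fz z s j
  | next (s q j : ℕ) : P.NwR z s q → Fz z q j → Fz z s j

theorem Cz_val {u z : List α} (h : P.SI u) (hz : P.SS z) {s j : ℕ} (hc : P.Cz z s j) (x : V) :
    (P.st (u ++ z.take s) x).1 = act P.M (z.take s) (P.st u x).1 ∧
    (P.st (u ++ z.take s) x).2 = (P.st u x).2 + j ∧ P.ar (z.take s) = P.ar [] := by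
  induction hc with
  | nil =>
    rw [List.take_zero, List.append_nil]
    exact ⟨rfl, rfl, rfl⟩
  | same s q j h1 h2 ih =>
    have h3 := h1.1.1
    have h4 := h1.1.2.1
    rw [st_same (h.lsm hz h1), drop_len_add, take_len_add, List.take_take,
      min_eq_left h3.le]
    obtain ⟨i1, i2, i3⟩ := ih
    refine ⟨?_, ?_, ?_⟩
    · rw [i1, ← act_append, take_take_drop z h3.le]
    · rw [i2, Nat.add_assoc]
    · rw [← take_take_drop z h3.le, ar_append, i3, tr_one]
      exact h1.1.2.2.2.2.2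

theorem Fz_val {u u' z : List α} {x x' : V} (h : P.SI u) (h' : P.SI u') (hz : P.SS z)
    (hI : (P.st u x).1 ∈ P.I) (hI' : (P.st u' x').1 ∈ P.I) {s j : ℕ} (hc : P.Fz z s j)
    (hj : (P.st u x).1 + P.T (((P.st u x).2 + j : ℕ) : ZMod P.D) =
      (P.st u' x').1 + P.T (((P.st u' x').2 + j : ℕ) : ZMod P.D)) :
    P.st (u ++ z.take s) x = P.st (u' ++ z.take s) x' := by
  induction hc with
  | first s q j h1 h2 =>
    have h3 := h1.1
    obtain ⟨a1, a2, a3⟩ := Cz_val h hz h2 x
    obtain ⟨b1, b2, b3⟩ := Cz_val h' hz h2 x'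
    rw [st_new (h.nw hz h1).1 (h.nw hz h1).2, st_new (h'.nw hz h1).1 (h'.nw hz h1).2]
    rw [drop_len_add, take_len_add, List.take_take, min_eq_left h3.le, drop_len_add, take_len_add,
      List.take_take, min_eq_left h3.le]
    unfold fl
    rw [a1, a2, b1, b2, ar_one a3 hI, ar_one b3 hI', hj]
  | same s q j h1 h2 ih =>
    have h3 := h1.1.1
    rw [st_same (h.lsm hz h1), st_same (h'.lsm hz h1)]
    rw [drop_len_add, take_len_add, List.take_take, min_eq_left h3.le, drop_len_add, take_len_add,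
      List.take_take, min_eq_left h3.le, ih hj]
  | next s q j h1 h2 ih =>
    have h3 := h1.1
    rw [st_new (h.nw hz h1).1 (h.nw hz h1).2, st_new (h'.nw hz h1).1 (h'.nw hz h1).2]
    rw [drop_len_add, take_len_add, List.take_take, min_eq_left h3.le, drop_len_add, take_len_add,
      List.take_take, min_eq_left h3.le, ih hj]

variable (P) in
/-- the last place of `z` -/
def LPR (z : List α) (q : ℕ) : Prop :=
  q ≤ z.length ∧ P.PlR (z.take q) ∧ ∀ t, q < t → t ≤ z.length → ¬ P.PlR (z.take t)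

theorem SI.lp {u z : List α} (h : P.SI u) (hz : P.SS z) {q : ℕ} (hq : P.LPR z q) :
    P.LP (u ++ z) (u.length + q) := by
  obtain ⟨h1, h2, h3⟩ := hq
  refine ⟨by rw [List.length_append]; omega, ?_, ?_⟩
  · rw [take_len_add, h.pl_iff hz h1]; exact h2
  · intro t h4 h5 h6
    rw [List.length_append] at h5
    obtain ⟨t, rfl⟩ : ∃ t', t = u.length + t' := ⟨t - u.length, by omega⟩
    rw [take_len_add, h.pl_iff hz (by omega)] at h6
    exact h3 t (by omega) (by omega) h6

/-- the final value depends only on the value after the first flush -/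
theorem Ef_val {u u' z : List α} {x x' : V} (h : P.SI u) (h' : P.SI u') (hz : P.SS z)
    (hI : (P.st u x).1 ∈ P.I) (hI' : (P.st u' x').1 ∈ P.I) {q j : ℕ} (hq : P.LPR z q)
    (hc : P.Cz z q j ∨ P.Fz z q j)
    (hj : (P.st u x).1 + P.T (((P.st u x).2 + j : ℕ) : ZMod P.D) =
      (P.st u' x').1 + P.T (((P.st u' x').2 + j : ℕ) : ZMod P.D)) :
    P.Ef (u ++ z) x = P.Ef (u' ++ z) x' := by
  rw [Ef_eq (h.lp hz hq), Ef_eq (h'.lp hz hq), drop_len_add, drop_len_add, take_len_add,
    take_len_add]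
  congr 1
  rcases hc with hc | hc
  · obtain ⟨a1, a2, a3⟩ := Cz_val h hz hc x
    obtain ⟨b1, b2, b3⟩ := Cz_val h' hz hc x'
    unfold fl
    rw [a1, a2, b1, b2, ar_one a3 hI, ar_one b3 hI', hj]
  · rw [Fz_val h h' hz hI hI' hc hj]

end Par

end Vale.Agent.P329.H409
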