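import Mathlib.Algebra.Group.Basic
import Mathlib.Algebra.BigOperators.Group.List.Basic
import Mathlib.Order.Monotone.Basic
import Mathlib.SetTheory.Cardinal.Finite
import Vale.Agent.P329.H409.Dfa

set_option linter.all false

/-!
Steady words for groups; all scales at once.
-/

namespace Vale.Agent.P329.H409

open Vale.Agent.P329 Vale.Agent.P329.Slow Vale.Agent.P329.Mark

section ext

variable {α : Type}

/-- extending a good factor -/
theorem extend (Pr : List α → Prop) (L E : ℕ) (z : List α)
    (hno : ∀ c g d, (c :: g) ++ [d] <:+: z → Pr g → ¬ Pr (c :: g) → ¬ Pr (g ++ [d]) →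
      L ≤ g.length → g.length < L + E → False) (n : ℕ) :
    ∀ a g b : List α, z = a ++ (g ++ b) → n ≤ a.length → n ≤ b.length → Pr g → L ≤ g.length →
      g.length + n = L + E → ∃ g', g' <:+: z ∧ Pr g' ∧ g'.length = L + E := by
  induction n with
  | zero =>
    intro a g b hz _ _ hg _ hl
    exact ⟨g, ⟨a, b, by rw [hz, List.append_assoc]⟩, hg, by omega⟩
  | succ n ih =>
    intro a g b hz ha hb hg hL hl
    obtain ⟨a', c, rfl⟩ : ∃ a' c, a = a' ++ [c] := by
      rcases List.eq_nil_or_concat a with rfl | ⟨a', c, rfl⟩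
      · simp at ha
      · exact ⟨a', c, by simp⟩
    cases b with
    | nil => simp at hb
    | cons d b =>
      rw [List.length_append, List.length_singleton] at ha
      rw [List.length_cons] at hb
      by_cases h1 : Pr (c :: g)
      · refine ih a' (c :: g) (d :: b) (by rw [hz]; simp) (by omega)
          (by rw [List.length_cons]; omega) h1 (by rw [List.length_cons]; omega)
          (by rw [List.length_cons]; omega)
      · by_cases h2 : Pr (g ++ [d])
        · refine ih (a' ++ [c]) (g ++ [d]) b (by rw [hz]; simp)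
            (by rw [List.length_append, List.length_singleton]; omega) (by omega) h2
            (by rw [List.length_append]; omega)
            (by rw [List.length_append, List.length_singleton]; omega)
        · exact (hno c g d ⟨a', b, by rw [hz]; simp⟩ hg h1 h2 hL (by omega)).elim

/-- a long word without nearly long words contains a long pure word, or a word of length `ℓ`
without blockers -/
theorem pure_cover (Pr : ℕ → List α → Prop) (L E : ℕ → ℕ) (r ℓ Em : ℕ)
    (hE : ∀ i < r, E i ≤ Em) (d : ℕ) : ∀ k, k + d = r → ∀ z : List α,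
      ℓ + 2 * d * Em ≤ z.length →
      (∀ j < k, ∀ x, x <:+: z → x.length = L j → ¬ Pr j x) →
      (∀ j < r, ∀ c g d, (c :: g) ++ [d] <:+: z → Pr j g → ¬ Pr j (c :: g) →
        ¬ Pr j (g ++ [d]) → L j ≤ g.length → g.length < L j + E j → False) →
      (∃ i < r, ∃ g, g <:+: z ∧ Pr i g ∧ g.length = L i + E i ∧
        ∀ j < i, ∀ x, x <:+: g → x.length = L j → ¬ Pr j x) ∨
      ∃ g, g <:+: z ∧ g.length = ℓ ∧ ∀ j < r, ∀ x, x <:+: g → x.length = L j → ¬ Pr j x := by
  induction d with
  | zero =>
    rintro k rfl z hz h1 _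
    refine Or.inr ⟨z.take ℓ, (List.take_prefix _ _).isInfix, ?_, ?_⟩
    · rw [List.length_take]; omega
    · exact fun j hj x hx => h1 j hj x (hx.trans (List.take_prefix _ _).isInfix)
  | succ d ih =>
    intro k hk z hz h1 h2
    have hEk : E k ≤ Em := hE k (by omega)
    have hdE : 2 * (d + 1) * Em = 2 * d * Em + 2 * Em := by ring
    have hz' : z = z.take (E k) ++ ((z.drop (E k)).take (z.length - 2 * E k) ++
        (z.drop (E k)).drop (z.length - 2 * E k)) := by
      rw [List.take_append_drop, List.take_append_drop]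
    obtain ⟨z', hz''⟩ : ∃ z', z' = (z.drop (E k)).take (z.length - 2 * E k) := ⟨_, rfl⟩
    have hl' : z'.length = z.length - 2 * E k := by
      rw [hz'', List.length_take, List.length_drop]; omega
    have hin : z' <:+: z := ⟨_, _, by rw [hz'', List.append_assoc]; exact hz'.symm⟩
    by_cases h3 : ∃ x, x <:+: z' ∧ x.length = L k ∧ Pr k x
    · obtain ⟨x, ⟨a, b, hab⟩, hxl, hxp⟩ := h3
      have hza : z = (z.take (E k) ++ a) ++ (x ++ (b ++ (z.drop (E k)).drop
          (z.length - 2 * E k))) := by
        conv_lhs => rw [hz', ← hz'', ← hab]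
        simp only [List.append_assoc]
      obtain ⟨g, hg1, hg2, hg3⟩ := extend (Pr k) (L k) (E k) z (fun c g d h4 h5 h6 h7 h8 h9 =>
        h2 k (by omega) c g d h4 h5 h6 h7 h8 h9) (E k) _ x _ hza
        (by rw [List.length_append, List.length_take]; omega)
        (by rw [List.length_append, List.length_drop, List.length_drop]; omega) hxp hxl.ge
        (by omega)
      exact Or.inl ⟨k, by omega, g, hg1, hg2, hg3, fun j hj x hx => h1 j hj x (hx.trans hg1)⟩
    · rcases ih (k + 1) (by omega) z' (by omega) (by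
        intro j hj x hx hxl hxp
        rcases Nat.lt_succ_iff_lt_or_eq.1 hj with h4 | rfl
        · exact h1 j h4 x (hx.trans hin) hxl hxp
        · exact h3 ⟨x, hx, hxl, hxp⟩)
        (fun j hj c g d h4 => h2 j hj c g d (h4.trans hin)) with
        ⟨i, hi, g, hg1, hg2, hg3, hg4⟩ | ⟨g, hg1, hg2, hg3⟩
      · exact Or.inl ⟨i, hi, g, hg1.trans hin, hg2, hg3, hg4⟩
      · exact Or.inr ⟨g, hg1.trans hin, hg2, hg3⟩

/-- a bounded monotone quantity is constant on some scale -/
theorem drop_scale (Φ : List α → ℕ) (L : ℕ → ℕ) (w₀ : List α)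
    (hΦ : ∀ x y, x <:+: y → y <:+: w₀ → Φ x ≤ Φ y) :
    ∀ c w, w <:+: w₀ → w.length = L (c + 1) → Φ w ≤ c →
      ∃ k ≤ c, ∃ y, y <:+: w ∧ y.length = L (k + 1) ∧
        ∀ x, x <:+: y → x.length = L k → Φ x = Φ y := by
  intro c
  induction c with
  | zero =>
    intro w h1 h2 h3
    refine ⟨0, le_rfl, w, List.infix_rfl, h2, fun x hx _ => ?_⟩
    have := hΦ x w hx h1
    omega
  | succ c ih =>
    intro w h1 h2 h3
    by_cases h4 : ∀ x, x <:+: w → x.length = L (c + 1) → Φ x = Φ w
    · exact ⟨c + 1, le_rfl, w, List.infix_rfl, h2, h4⟩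
    · push Not at h4
      obtain ⟨x, hx, hxl, hne⟩ := h4
      have h5 := hΦ x w hx h1
      obtain ⟨k, hk, y, hy, hyl, h6⟩ := ih x (hx.trans h1) hxl (by omega)
      exact ⟨k, by omega, y, hy.trans hx, hyl, h6⟩

end ext

section grp

variable {α G : Type} [Group G] (φ : α → G)

/-- `g` is `N`-steady: every value which occurs at a position of `g` occurs in every window of
`N` consecutive positions -/
def Steady (N : ℕ) (g : List α) : Prop :=
  ∀ q, 0 < q → q ≤ g.length → ∀ t, t + N ≤ g.length →
    ∃ q', t < q' ∧ q' ≤ t + N ∧ ((g.take q').map φ).prod = ((g.take q).map φ).prod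

/-- the values visited -/
def vis (g : List α) : Set G := {v | ∃ q, 0 < q ∧ q ≤ g.length ∧ v = ((g.take q).map φ).prod}

theorem vis_infix (s x t : List α) :
    (fun v => (s.map φ).prod * v) '' vis φ x ⊆ vis φ (s ++ x ++ t) := by
  rintro _ ⟨_, ⟨q, h1, h2, rfl⟩, rfl⟩
  refine ⟨s.length + q, by omega, ?_, ?_⟩
  · rw [List.length_append, List.length_append]; omega
  · rw [List.append_assoc, take_len_add, List.take_append_of_le_length h2, List.map_append,
      List.prod_append]

variable [Finite G]

theorem vis_mono {x y : List α} (h : x <:+: y) : (vis φ x).ncard ≤ (vis φ y).ncard := by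
  obtain ⟨s, t, rfl⟩ := h
  rw [← Set.ncard_image_of_injective (vis φ x) (mul_right_injective (s.map φ).prod)]
  exact Set.ncard_le_ncard (vis_infix φ s x t) (Set.toFinite _)

theorem vis_pos {x : List α} (h : 0 < x.length) : 0 < (vis φ x).ncard := by
  rw [Set.ncard_pos (Set.toFinite _)]
  exact ⟨_, 1, Nat.one_pos, h, rfl⟩

theorem Steady.sub {N : ℕ} {x y : List α} (hy : Steady φ N y) (h : x <:+: y) :
    Steady φ N x := by
  obtain ⟨s, t, rfl⟩ := h
  intro q hq1 hq2 t' ht'
  have hlen : (s ++ x ++ t).length = s.length + x.length + t.length := by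
    rw [List.length_append, List.length_append]
  obtain ⟨q', h1, h2, h3⟩ := hy (s.length + q) (by omega) (by omega) (s.length + t') (by omega)
  obtain ⟨q'', rfl⟩ : ∃ q'', q' = s.length + q'' := ⟨q' - s.length, by omega⟩
  refine ⟨q'', by omega, by omega, ?_⟩
  rw [List.append_assoc, take_len_add, take_len_add, List.take_append_of_le_length (by omega),
    List.take_append_of_le_length (by omega), List.map_append, List.prod_append,
    List.map_append, List.prod_append] at h3
  exact mul_left_cancel h3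

/-- all windows visit the same number of values -/
theorem steady_of {N : ℕ} (hN : 0 < N) {y : List α}
    (h : ∀ x, x <:+: y → x.length = N → (vis φ y).ncard ≤ (vis φ x).ncard) :
    Steady φ N y := by
  intro q hq1 hq2 t ht
  set s := y.take t with hs
  set x := (y.drop t).take N with hx
  set u := (y.drop t).drop N with hu
  have hxl : x.length = N := by rw [hx, List.length_take, List.length_drop]; omega
  have hsl : s.length = t := by rw [hs, List.length_take]; omega
  have e : y = s ++ x ++ u := by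
    rw [hs, hx, hu, List.append_assoc, List.take_append_drop, List.take_append_drop]
  have h2 : (vis φ y).ncard ≤ (vis φ x).ncard := h x ⟨s, u, e.symm⟩ hxl
  have h5 : (fun v => (s.map φ).prod * v) '' vis φ x = vis φ y := by
    apply Set.eq_of_subset_of_ncard_le _ _ (Set.toFinite _)
    · conv_rhs => rw [e]
      exact vis_infix φ s x u
    · rw [Set.ncard_image_of_injective (vis φ x) (mul_right_injective (s.map φ).prod)]
      exact h2
  have h6 : ((y.take q).map φ).prod ∈ vis φ y := ⟨q, hq1, hq2, rfl⟩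
  rw [← h5] at h6
  obtain ⟨_, ⟨q', h7, h8, rfl⟩, h9⟩ := h6
  refine ⟨t + q', by omega, by omega, ?_⟩
  rw [← h9]
  have e2 : y.take (t + q') = s ++ x.take q' := by
    conv_lhs => rw [e, List.append_assoc, ← hsl, take_len_add, List.take_append_of_le_length h8]
  rw [e2, List.map_append, List.prod_append]

/-- a factor of a steady word visits all values -/
theorem Steady.vis_eq {N : ℕ} {x y : List α} (hy : Steady φ N y) (h : x <:+: y)
    (hl : N ≤ x.length) : (vis φ x).ncard = (vis φ y).ncard := by
  apply le_antisymm (vis_mono φ h)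
  obtain ⟨s, t, rfl⟩ := h
  have h1 : vis φ (s ++ x ++ t) ⊆ (fun v => (s.map φ).prod * v) '' vis φ x := by
    rintro _ ⟨q, hq1, hq2, rfl⟩
    have hlen : (s ++ x ++ t).length = s.length + x.length + t.length := by
      rw [List.length_append, List.length_append]
    obtain ⟨q', h1, h2, h3⟩ := hy q hq1 hq2 s.length (by omega)
    obtain ⟨q'', rfl⟩ : ∃ q'', q' = s.length + q'' := ⟨q' - s.length, by omega⟩
    refine ⟨_, ⟨q'', by omega, by omega, rfl⟩, ?_⟩
    rw [← h3, List.append_assoc, take_len_add, List.take_append_of_le_length (by omega),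
      List.map_append, List.prod_append]
  refine (Set.ncard_le_ncard h1 (Set.toFinite _)).trans ?_
  rw [Set.ncard_image_of_injective (vis φ x) (mul_right_injective (s.map φ).prod)]

/-- every long word which does not visit all values contains a steady word of some scale -/
theorem steady_cover (L : ℕ → ℕ) (h0 : 0 < L 0) (hL : StrictMono L) (c : ℕ) (w : List α)
    (hw : w.length = L (c + 1)) (hv : (vis φ w).ncard ≤ c + 1) :
    ∃ k ≤ c, ∃ y, y <:+: w ∧ y.length = L (k + 1) ∧ Steady φ (L k) y := by
  obtain ⟨k, hk, y, hy, hyl, h1⟩ := drop_scale (fun x => (vis φ x).ncard - 1) L w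
    (fun x y h _ => Nat.sub_le_sub_right (vis_mono φ h) 1) c w List.infix_rfl hw (by
      show (vis φ w).ncard - 1 ≤ c
      omega)
  have hLk : 0 < L k := h0.trans_le (hL.monotone (Nat.zero_le k))
  have hLk1 : L k < L (k + 1) := hL (Nat.lt_succ_self k)
  refine ⟨k, by omega, y, hy, hyl, steady_of φ hLk fun x hx hxl => ?_⟩
  have h2 : (vis φ x).ncard - 1 = (vis φ y).ncard - 1 := h1 x hx hxl
  have h3 := vis_pos φ (x := x) (by omega)
  have h4 := vis_pos φ (x := y) (by omega)
  omega

/-- the automaton of a group -/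
noncomputable def gdfa (S : Set G) : DFA α (Fin (Nat.card G)) where
  step i a := Finite.equivFin G ((Finite.equivFin G).symm i * φ a)
  start := Finite.equivFin G 1
  accept := {i | (Finite.equivFin G).symm i ∈ S}

theorem gdfa_eval (S : Set G) (w : List α) (i : Fin (Nat.card G)) :
    (gdfa φ S).evalFrom i w =
      Finite.equivFin G ((Finite.equivFin G).symm i * (w.map φ).prod) := by
  induction w generalizing i with
  | nil => simp [DFA.evalFrom]
  | cons a w ih =>
    rw [DFA.evalFrom_cons, ih]
    show Finite.equivFin G ((Finite.equivFin G).symm (Finite.equivFin G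
      ((Finite.equivFin G).symm i * φ a)) * (w.map φ).prod) = _
    rw [Equiv.symm_apply_apply, List.map_cons, List.prod_cons, mul_assoc]

theorem gdfa_accepts (S : Set G) (w : List α) :
    w ∈ (gdfa φ S).accepts ↔ (w.map φ).prod ∈ S := by
  show (gdfa φ S).evalFrom (gdfa φ S).start w ∈ (gdfa φ S).accept ↔ _
  rw [gdfa_eval]
  show (Finite.equivFin G).symm (Finite.equivFin G ((Finite.equivFin G).symm
    (Finite.equivFin G 1) * (w.map φ).prod)) ∈ S ↔ _
  rw [Equiv.symm_apply_apply, Equiv.symm_apply_apply, one_mul]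

theorem gdfa_img (S : Set G) (x : List α) : img (gdfa φ S) x = Set.univ := by
  refine Set.eq_univ_of_forall fun i => ?_
  refine ⟨Finite.equivFin G ((Finite.equivFin G).symm i * ((x.map φ).prod)⁻¹), ?_⟩
  show (gdfa φ S).evalFrom _ x = i
  rw [gdfa_eval, Equiv.symm_apply_apply, inv_mul_cancel_right, Equiv.apply_symm_apply]

theorem gdfa_place (S : Set G) (g : List α) (q : ℕ) :
    Place (gdfa φ S) Set.univ 0 g q ↔ q ≤ g.length := by
  unfold Place
  rw [gdfa_img]
  exact ⟨fun h => h.2.1, fun h => ⟨by omega, h, rfl⟩⟩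

theorem gdfa_same (S : Set G) (g : List α) (e q : ℕ) :
    Same (gdfa φ S) Set.univ 0 g e q ↔
      q ≤ g.length ∧ ((g.take q).map φ).prod = ((g.take e).map φ).prod := by
  have hs : ∀ q, ((g.take q).map φ).prod * ((g.drop q).map φ).prod = (g.map φ).prod := by
    intro q
    rw [← List.prod_append, ← List.map_append, List.take_append_drop]
  unfold Same
  rw [gdfa_place]
  refine and_congr_right fun _ => ?_
  constructor
  · intro h
    have h1 := h (Finite.equivFin G 1) trivial
    rw [gdfa_eval, gdfa_eval, Equiv.symm_apply_apply, one_mul, one_mul] at h1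
    have h2 := (Finite.equivFin G).injective h1
    have h3 := hs q
    rw [h2, ← hs e] at h3
    exact mul_right_cancel h3
  · intro h s _
    rw [gdfa_eval, gdfa_eval]
    congr 2
    have h3 := hs q
    rw [h, ← hs e] at h3
    exact mul_left_cancel h3

/-- steady words are zones -/
theorem steady_zone (S : Set G) (B : Set (List α)) {N K ρ : ℕ} (hN : 0 < N) (hNK : N ≤ K)
    {g : List α} (hg : Steady φ N g) (hρ : 0 < ρ) (hl : K + ρ * N ≤ g.length)
    (hb : ∃ b ∈ B, b <:+: g.drop (g.length - K))
    (hB : ∀ b ∈ B, b <:+: g → b.length ≤ N → ∃ N', N' < b.length ∧ Steady φ N' b ∧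
      (vis φ g).ncard ≤ (vis φ b).ncard) :
    Zone (gdfa φ S) Set.univ 0 B ρ g := by
  have hρL : 0 < ρ * N := Nat.mul_pos hρ hN
  refine ⟨N, K, hN, by omega, hNK, hl, ?_, hb, ?_, ?_⟩
  · intro x _ _
    rw [gdfa_img]
  · exact ⟨g.length, by omega, (gdfa_place φ S g _).2 le_rfl⟩
  · intro e he hpe
    rw [gdfa_place] at hpe
    have key : ∀ t, t + N ≤ g.length → ∃ q, t < q ∧ q ≤ t + N ∧
        Same (gdfa φ S) Set.univ 0 g e q := by
      intro t ht
      obtain ⟨q, h1, h2, h3⟩ := hg e (by omega) hpe t ht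
      exact ⟨q, h1, h2, (gdfa_same φ S g e q).2 ⟨by omega, h3⟩⟩
    refine ⟨key, ?_⟩
    rintro q s hqs h1 h2 h3 ⟨b, hbB, hbi⟩
    have hs := h2.1.2.1
    have h4 : s ≤ q + N := by
      by_contra h5
      push Not at h5
      obtain ⟨q', h6, h7, h8⟩ := key q (by omega)
      exact h3 q' h6 (by omega) h8
    have h5 := hbi.length_le
    rw [List.length_drop, List.length_take] at h5
    obtain ⟨N', h6, h7, h8⟩ := hB b hbB (hbi.trans ((List.drop_suffix _ _).isInfix.trans
        (List.take_prefix _ _).isInfix)) (by omega)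
    obtain ⟨a, c, hac⟩ := hbi
    -- the word between the two visits
    have hlen := congrArg List.length hac
    rw [List.length_append, List.length_append, List.length_drop, List.length_take] at hlen
    have e1 : g = (g.take q ++ a) ++ b ++ (c ++ g.drop s) := by
      have e2 : g.take q ++ (g.take s).drop q = g.take s := take_take_drop g hqs.le
      conv_lhs => rw [← List.take_append_drop s g, ← e2, ← hac]
      simp only [List.append_assoc]
    have hpl : (g.take q ++ a).length = q + a.length := by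
      rw [List.length_append, List.length_take]; omega
    have h9 : (fun v => ((g.take q ++ a).map φ).prod * v) '' vis φ b = vis φ g := by
      apply Set.eq_of_subset_of_ncard_le _ _ (Set.toFinite _)
      · conv_rhs => rw [e1]
        exact vis_infix φ _ b _
      · rw [Set.ncard_image_of_injective (vis φ b)
          (mul_right_injective ((g.take q ++ a).map φ).prod)]
        exact h8
    have h10 : ((g.take e).map φ).prod ∈ vis φ g := ⟨e, by omega, hpe, rfl⟩
    rw [← h9] at h10
    obtain ⟨_, ⟨p, h11, h12, rfl⟩, h13⟩ := h10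
    obtain ⟨p', h14, h15, h16⟩ := h7 p h11 h12 0 (by omega)
    refine h3 (q + a.length + p') (by omega) (by omega) ((gdfa_same φ S g e _).2 ⟨by omega, ?_⟩)
    rw [← h13, ← h16]
    show _ = ((g.take q ++ a).map φ).prod * ((b.take p').map φ).prod
    rw [← List.prod_append, ← List.map_append]
    congr 2
    conv_lhs => rw [e1, List.append_assoc, ← hpl, take_len_add,
      List.take_append_of_le_length (by omega)]

/-- nearly long steady words `g`, with the letters around them -/
def Near (N L E : ℕ) (c : α) (g : List α) (d : α) : Prop :=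
  Steady φ N g ∧ ¬ Steady φ N (c :: g) ∧ ¬ Steady φ N (g ++ [d]) ∧ L ≤ g.length ∧
    g.length < L + E

/-- a word all of whose nearly long steady factors visit all its values -/
def Clear (L : ℕ → ℕ) (ρ : ℕ) (u : List α) : Prop :=
  ∀ k, k + 1 < Nat.card G → ∀ c g d, (c :: g) ++ [d] <:+: u →
    Near φ (L k) (L (k + 1)) (ρ * L k) c g d → (vis φ g).ncard = (vis φ u).ncard

/-- the blockers -/
def Blk (L : ℕ → ℕ) (r : ℕ) : Set (List α) :=
  {x | (∃ k < r, x.length = L (k + 1) ∧ Steady φ (L k) x) ∨ x.length = L r + 1}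

/-- clear words contain zones -/
theorem clear_zone (S : Set G) (L : ℕ → ℕ) (h0 : 0 < L 0) (hL : StrictMono L) (ρ r : ℕ)
    (hρ : 0 < ρ) (hr : Nat.card G = r + 1) {u : List α}
    (hul : (ρ + 2 * r * ρ + 2) * L r ≤ u.length) (hu : Clear φ L ρ u) :
    ∃ g, g <:+: u ∧ Zone (gdfa φ S) Set.univ 0 (Blk φ L r) ρ g := by
  have hLr : 0 < L r := h0.trans_le (hL.monotone (Nat.zero_le r))
  rcases pure_cover (fun k x => Steady φ (L k) x ∧ (vis φ x).ncard ≠ (vis φ u).ncard)
    (fun k => L (k + 1)) (fun k => ρ * L k) r (L r + 1 + ρ * L r) (ρ * L r)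
    (fun i hi => Nat.mul_le_mul_left _ (hL.monotone hi.le)) r 0 (by omega) u (by
      have e : (ρ + 2 * r * ρ + 2) * L r = ρ * L r + 2 * r * (ρ * L r) + 2 * L r := by ring
      omega) (fun j hj => absurd hj (by omega)) (by
      rintro j hj c g d hin ⟨h1, h2⟩ h3 h4 h5 h6
      have hLj : L j < L (j + 1) := hL (Nat.lt_succ_self j)
      refine h2 (hu j (by omega) c g d hin ⟨h1, ?_, ?_, h5, h6⟩)
      · intro h7
        refine h3 ⟨h7, ?_⟩
        rw [← h7.vis_eq φ (List.suffix_cons c g).isInfix (by omega)]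
        exact h2
      · intro h7
        refine h4 ⟨h7, ?_⟩
        rw [← h7.vis_eq φ (List.prefix_append g [d]).isInfix (by omega)]
        exact h2) with
    ⟨i, hi, g, hg1, ⟨hg2, hg2'⟩, hg3, hg4⟩ | ⟨g, hg1, hg2, hg3⟩
  · -- a pure word of scale `i`
    have hLi : 0 < L i := h0.trans_le (hL.monotone (Nat.zero_le i))
    have hLi1 : L i < L (i + 1) := hL (Nat.lt_succ_self i)
    have hLir : L i < L r := hL hi
    refine ⟨g, hg1, steady_zone φ S _ hLi hLi1.le hg2 hρ hg3.ge ?_ ?_⟩
    · refine ⟨g.drop (g.length - L (i + 1)), Or.inl ⟨i, hi, ?_,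
        hg2.sub φ (List.drop_suffix _ _).isInfix⟩, List.infix_rfl⟩
      rw [List.length_drop, hg3]
      omega
    · rintro b (⟨k, hk, hbl, hbs⟩ | hbl) hbi hbN
      · have hLk1 : L k < L (k + 1) := hL (Nat.lt_succ_self k)
        have hki : k < i := by
          by_contra h6
          have h7 : L i ≤ L k := hL.monotone (by omega)
          omega
        refine ⟨L k, by omega, hbs, ?_⟩
        have h8 : ¬ (Steady φ (L k) b ∧ (vis φ b).ncard ≠ (vis φ u).ncard) := hg4 k hki b hbi hbl
        have h9 : (vis φ b).ncard = (vis φ u).ncard := by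
          by_contra h10
          exact h8 ⟨hbs, h10⟩
        rw [h9]
        exact vis_mono φ hg1
      · omega
  · -- all blockers visit all values
    have hfull : ∀ x, x <:+: g → x.length = L r → (vis φ g).ncard ≤ (vis φ x).ncard := by
      intro x hx hxl
      have hgu := vis_mono φ hg1
      by_cases h1 : Nat.card G ≤ (vis φ x).ncard
      · refine le_trans ?_ h1
        rw [← Set.ncard_univ]
        exact Set.ncard_le_ncard (Set.subset_univ _) (Set.toFinite _)
      · have hr0 : r ≠ 0 := by
          rintro rfl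
          have := vis_pos φ (x := x) (by omega)
          omega
        obtain ⟨c, rfl⟩ : ∃ c, r = c + 1 := ⟨r - 1, by omega⟩
        obtain ⟨k, hk, y, hy, hyl, hys⟩ := steady_cover φ L h0 hL c x hxl (by omega)
        have h8 : ¬ (Steady φ (L k) y ∧ (vis φ y).ncard ≠ (vis φ u).ncard) :=
          hg3 k (by omega) y (hy.trans hx) hyl
        have h9 : (vis φ y).ncard = (vis φ u).ncard := by
          by_contra h10
          exact h8 ⟨hys, h10⟩
        have h10 := vis_mono φ hy
        omega
    have hst : Steady φ (L r) g := steady_of φ hLr hfull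
    refine ⟨g, hg1, steady_zone φ S _ (K := L r + 1) hLr (Nat.le_succ _) hst hρ hg2.ge ?_ ?_⟩
    · refine ⟨g.drop (g.length - (L r + 1)), Or.inr ?_, List.infix_rfl⟩
      rw [List.length_drop, hg2]
      omega
    · rintro b (⟨k, hk, hbl, hbs⟩ | hbl) hbi hbN
      · have hLk1 : L k < L (k + 1) := hL (Nat.lt_succ_self k)
        refine ⟨L k, by omega, hbs, ?_⟩
        have h8 : ¬ (Steady φ (L k) b ∧ (vis φ b).ncard ≠ (vis φ u).ncard) := hg3 k hk b hbi hbl
        have h9 : (vis φ b).ncard = (vis φ u).ncard := by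
          by_contra h10
          exact h8 ⟨hbs, h10⟩
        rw [h9]
        exact vis_mono φ hg1
      · omega

end grp

/-- **groups: all scales at once** -/
theorem group_SH (G : Type) [Group G] [Finite G] : ∃ ρ κ : ℕ, ∀ (α : Type) [Finite α] (φ : α → G)
    (S : Set G) (L : ℕ → ℕ) (C : ℕ), 0 < L 0 → StrictMono L →
    SH 1 {w : List α | (w.map φ).prod ∈ S ∧
      Dm {u | u.length = κ * L (Nat.card G - 1) ∧ Clear φ L ρ u} C w} := by
  obtain ⟨ρ, hρ⟩ := zone_SH (Nat.card G)
  obtain ⟨r, hr⟩ : ∃ r, Nat.card G = r + 1 := by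
    have : 0 < Nat.card G := Nat.card_pos
    exact ⟨Nat.card G - 1, by omega⟩
  refine ⟨ρ + 1, (ρ + 1) + 2 * r * (ρ + 1) + 2, fun α _ φ S L C h0 hL => ?_⟩
  have hr' : Nat.card G - 1 = r := by omega
  rw [hr']
  have hQ : SH 1 {w : List α | Dm {u | u.length = ((ρ + 1) + 2 * r * (ρ + 1) + 2) * L r ∧
      Clear φ L (ρ + 1) u} C w} := Cls.dm (P := fun X => SH 1 X) cls_SH _ C
  have h1 := SH.inter (hρ α (gdfa φ S) Set.univ 0 C (Blk φ L r)) hQ
  convert h1 using 1
  ext w
  constructor
  · rintro ⟨hw, hd⟩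
    refine ⟨⟨(gdfa_accepts φ S w).2 hw, ?_⟩, hd⟩
    intro x hx hxl
    obtain ⟨u, ⟨hul, hu⟩, hux⟩ := hd x hx hxl
    obtain ⟨g, hg1, N, K, a1, a2, a3, a4, a5⟩ := clear_zone φ S L h0 hL (ρ + 1) r
      (Nat.succ_pos _) hr hul.ge hu
    refine ⟨g, ⟨N, K, a1, a2, a3, ?_, a5⟩, hg1.trans hux⟩
    have : ρ * N ≤ (ρ + 1) * N := Nat.mul_le_mul_right _ (by omega)
    omega
  · rintro ⟨⟨hw, -⟩, hd⟩
    exact ⟨(gdfa_accepts φ S w).1 hw, hd⟩

/-- **groups: one scale** -/
theorem scale_SH (G : Type) [Group G] [Finite G] : ∃ ρ : ℕ,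
    (∀ (α : Type) [Finite α] (φ : α → G) (S : Set G) (N C : ℕ), 0 < N →
      SH 1 {w : List α | (w.map φ).prod ∈ S ∧ Dm {g | g.length = ρ * N ∧ Steady φ N g} C w}) ∧
    (∀ (α : Type) (φ : α → G) (w : List α), w.length = ρ ^ Nat.card G →
      ∃ k < Nat.card G, ∃ g, g <:+: w ∧ g.length = ρ ^ (k + 1) ∧ Steady φ (ρ ^ k) g) := by
  obtain ⟨ρ, hρ⟩ := zone_SH (Nat.card G)
  refine ⟨ρ + 3, fun α _ φ S N C hN => ?_, fun α φ w hw => ?_⟩
  · have hQ : SH 1 {w : List α | Dm {g | g.length = (ρ + 3) * N ∧ Steady φ N g} C w} :=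
      Cls.dm (P := fun X => SH 1 X) cls_SH _ C
    have h1 := SH.inter (hρ α (gdfa φ S) Set.univ 0 C {x | x.length = N + 1}) hQ
    convert h1 using 1
    ext w
    constructor
    · rintro ⟨hw, hd⟩
      refine ⟨⟨(gdfa_accepts φ S w).2 hw, ?_⟩, hd⟩
      intro x hx hxl
      obtain ⟨g, ⟨hgl, hg⟩, hgx⟩ := hd x hx hxl
      have e : (ρ + 3) * N = (ρ + 1) * N + 2 * N := by ring
      have e2 : (ρ + 1) * N = ρ * N + N := by ring
      obtain ⟨N', K', a1, a2, a3, a4, a5⟩ := steady_zone φ S {x | x.length = N + 1}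
        (K := N + 1) (ρ := ρ + 1) hN (Nat.le_succ N) hg (Nat.succ_pos ρ) (by omega)
        ⟨g.drop (g.length - (N + 1)), by
          show (g.drop (g.length - (N + 1))).length = N + 1
          rw [List.length_drop]; omega, List.infix_rfl⟩
        (fun b hb _ hbN => by
          have : b.length = N + 1 := hb
          omega)
      refine ⟨g, ⟨N', K', a1, a2, a3, ?_, a5⟩, hgx⟩
      have : ρ * N' ≤ (ρ + 1) * N' := Nat.mul_le_mul_right _ (by omega)
      omega
    · rintro ⟨⟨hw, -⟩, hd⟩
      exact ⟨(gdfa_accepts φ S w).1 hw, hd⟩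
  · obtain ⟨c, hc⟩ : ∃ c, Nat.card G = c + 1 := by
      have : 0 < Nat.card G := Nat.card_pos
      exact ⟨Nat.card G - 1, by omega⟩
    have hv : (vis φ w).ncard ≤ c + 1 := by
      rw [← hc, ← Set.ncard_univ]
      exact Set.ncard_le_ncard (Set.subset_univ _) (Set.toFinite _)
    rw [hc] at hw
    obtain ⟨k, hk, y, hy, hyl, hys⟩ := steady_cover φ (fun k => (ρ + 3) ^ k)
      (Nat.pow_pos (Nat.succ_pos _)) (pow_right_strictMono₀ (by omega)) c w hw hv
    exact ⟨k, by omega, y, hy, hyl, hys⟩

theorem values_cover {α G : Type} [Group G] [Finite G] (φ : α → G) (L : ℕ → ℕ) (h0 : 0 < L 0)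
    (hL : StrictMono L) (w : List α) (hw : w.length = L (Nat.card G - 1)) :
    vis φ w = Set.univ ∨ ∃ k, k + 1 < Nat.card G ∧ ∃ g, g <:+: w ∧ g.length = L (k + 1) ∧
      Steady φ (L k) g := by
  by_cases h1 : Nat.card G ≤ (vis φ w).ncard
  · left
    apply Set.eq_of_subset_of_ncard_le (Set.subset_univ _) _ (Set.toFinite _)
    rw [Set.ncard_univ]
    exact h1
  · right
    have hw0 : 0 < w.length := by
      rw [hw]
      exact h0.trans_le (hL.monotone (Nat.zero_le _))
    have h2 := vis_pos φ hw0
    obtain ⟨c, hc⟩ : ∃ c, Nat.card G = c + 2 := ⟨Nat.card G - 2, by omega⟩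
    rw [hc] at hw
    obtain ⟨k, hk, y, hy, hyl, hys⟩ := steady_cover φ L h0 hL c w hw (by omega)
    exact ⟨k, by omega, y, hy, hyl, hys⟩

end Vale.Agent.P329.H409
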