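import Vale.Agent.P329.H409.View

set_option linter.all false

/-!
Where does the last place descend from?
-/

namespace Vale.Agent.P329.H409

open Vale.Agent.P329 Vale.Agent.P329.Slow Vale.Agent.P329.Mark

variable {α V : Type} [AddCommGroup V] (P : Par α V)

namespace Par

/-- the possible cuts -/
def A (N K : ℕ) (g : List α) (e p : ℕ) : Prop :=
  N + 2 * P.m < p ∧ p + K ≤ g.length ∧ P.pr g e p

variable {P}

namespace Zone

variable [Finite V] {g : List α} {N K : ℕ}

theorem vw (hg : P.Zone N K g) (b : List α) {p : ℕ} (h1 : 2 * P.m ≤ p)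
    (h2 : p + 2 * P.m ≤ g.length) (hp : P.Pl (g.take p)) :
    P.Vw (g.take p) (g.drop p ++ b) [] (g ++ b) :=
  ⟨by rw [← List.append_assoc, List.take_append_drop, List.nil_append],
    hg.si h1 (by omega) hp, (hg.ss h1 h2 hp).of_pfx b⟩

theorem run (hg : P.Zone N K g) (b : List α) {e p : ℕ} (he1 : g.length < e + K)
    (he2 : e ≤ g.length) (he3 : P.Pl (g.take e)) (h1 : N + 2 * P.m < p)
    (h2 : p + 2 * P.m ≤ g.length) (hp : P.pr g e p) (n : ℕ) : ∀ s, s < n → p ≤ s →
      s ≤ g.length → P.pr g e s → P.Cz (g.drop p ++ b) (s - p) (ct (P.pr g e) p s) := by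
  induction n with
  | zero => intro s hs; omega
  | succ n ih =>
    intro s hs h3 h4 h5
    rcases Nat.eq_or_lt_of_le h3 with rfl | h6
    · rw [Nat.sub_self, ct_self]
      exact Cz.nil
    · obtain ⟨q, h7, h8, h9, h10, h11⟩ := hg.prevS he1 he2 he3 (by omega) h4 h5
      have h12 : p ≤ q := by
        by_contra h
        exact h11 p (by omega) h6 hp
      rw [ct_step h12 h9 h5 h11]
      refine Cz.same _ (q - p) _ ?_ (ih q (by omega) h12 (by omega) h10)
      have hl : (g.take p).length = p := by rw [List.length_take]; omega
      refine ((hg.vw b (by omega) h2 hp.1).lsm (s' := s) (q' := q) ?_ ?_ ?_ (by omega)).2 ?_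
      · rw [hl, List.length_nil]; omega
      · rw [hl, List.length_nil]; omega
      · rw [List.length_append]; omega
      · rw [List.take_append_of_le_length h4]; exact h7

theorem desc (hg : P.Zone N K g) {b u a : List α}
    (v : P.Vw u (a ++ (g ++ b)) (u ++ a) (g ++ b)) {e p : ℕ} (he1 : g.length < e + K)
    (he2 : e ≤ g.length) (he3 : P.Pl (g.take e)) (h1 : N + 2 * P.m < p)
    (hp : P.pr g e p) (n : ℕ) : ∀ s, s < n → p ≤ s →
      s ≤ g.length → P.pr g e s → P.Rz (a ++ (g ++ b)) (a.length + s) →
      P.Rz (a ++ (g ++ b)) (a.length + p) := by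
  induction n with
  | zero => intro s hs; omega
  | succ n ih =>
    intro s hs h3 h4 h5 h13
    rcases Nat.eq_or_lt_of_le h3 with rfl | h6
    · exact h13
    · obtain ⟨q, h7, h8, h9, h10, h11⟩ := hg.prevS he1 he2 he3 (by omega) h4 h5
      have h12 : p ≤ q := by
        by_contra h
        exact h11 p (by omega) h6 hp
      refine ih q (by omega) h12 (by omega) h10 (h13.same ?_)
      refine (v.lsm (s' := s) (q' := q) ?_ ?_ ?_ (by omega)).2 ?_
      · rw [List.length_append]; omega
      · rw [List.length_append]; omega
      · rw [List.length_append]; omega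
      · rw [List.take_append_of_le_length h4]; exact h7

end Zone

/-- the last place descends from a class of places in the zone -/
structure Trk (P : Par α V) (N K : ℕ) (g b : List α) (S e J : ℕ) : Prop where
  e1 : g.length < e + K
  e2 : e ≤ g.length
  e3 : P.Pl (g.take e)
  kind : (∀ p, P.A N K g e p → ∃ j, j + ct (P.pr g e) (N + 2 * P.m) p = J ∧
      P.Cz (g.drop p ++ b) (S - p) j) ∨
    (∀ p, P.A N K g e p → ∃ j, j + ct (P.pr g e) (N + 2 * P.m) p = J ∧
      P.Fz (g.drop p ++ b) (S - p) j)
  back : ∀ u a : List α, P.Vw u (a ++ (g ++ b)) (u ++ a) (g ++ b) →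
    P.Rz (a ++ (g ++ b)) (a.length + S) → ∀ p, P.A N K g e p →
      P.Rz (a ++ (g ++ b)) (a.length + p)

theorem track [Finite V] {g : List α} {N K : ℕ} (hg : P.Zone N K g)
    (b : List α) (n : ℕ) : ∀ S, S < n → g.length < S + K → S ≤ (g ++ b).length →
      P.Pl ((g ++ b).take S) → ∃ e J, P.Trk N K g b S e J := by
  have hm := hg.hm
  have hK := hg.hK
  have hN := hg.hN
  have hl : K + (P.D + 5) * N + 2 * P.m + 1 ≤ g.length := hg.hl
  have hl' : 5 * N ≤ (P.D + 5) * N := Nat.mul_le_mul_right _ (by omega)
  induction n with
  | zero => intro S hS; omega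
  | succ n ih =>
    intro S hS h1 h2 h3
    by_cases h4 : S ≤ g.length
    · -- the place is in the zone
      have h5 : P.Pl (g.take S) := by rwa [List.take_append_of_le_length h4] at h3
      refine ⟨S, ct (P.pr g S) (N + 2 * P.m) S, h1, h4, h5, Or.inl ?_, ?_⟩
      · rintro p ⟨h6, h7, h8⟩
        refine ⟨ct (P.pr g S) p S, ?_, ?_⟩
        · rw [Nat.add_comm, ← ct_add _ (by omega) (by omega)]
        · exact hg.run b h1 h4 h5 h6 (by omega) h8 (S + 1) S (by omega) (by omega) h4 ⟨h5, rfl⟩
      · rintro u a v hr p ⟨h6, h7, h8⟩
        exact hg.desc v h1 h4 h5 h6 h8 (S + 1) S (by omega) (by omega) h4 ⟨h5, rfl⟩ hr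
    · push Not at h4
      have hSl : ((g ++ b).take S).length = S := by rw [List.length_take]; omega
      -- a blocker near the end of the zone
      have hbk : P.Bk (((g ++ b).take S).drop (g.length - K)) := by
        refine hg.bl.mono ?_
        have h5 : (g ++ b).take S = g ++ b.take (S - g.length) := by
          have := take_len_add g b (S - g.length)
          rwa [show g.length + (S - g.length) = S by omega] at this
        rw [h5, List.drop_append_of_le_length (by omega)]
        exact (List.prefix_append _ _).isInfix
      -- the last window contains a place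
      obtain ⟨q₀, hq1, hq2, hq4⟩ := hg.ty
      -- views
      have e1 : ∀ u a : List α, ∀ t, u.length + (a.length + t) = (u ++ a).length + t := by
        intro u a t; rw [List.length_append]; omega
      have e2 : ∀ p ≤ g.length, ∀ t, p ≤ t → (g.take p).length + (t - p) =
          ([] : List α).length + t := by
        intro p h5 t h6
        rw [List.length_take, List.length_nil]; omega
      by_cases hsm : ∃ q, P.Sm ((g ++ b).take S) q
      · obtain ⟨q', hq'⟩ := hsm
        obtain ⟨q, hqq, hq⟩ := hq'.last
        have a1 := hq.1.1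
        have a2 : g.length - K < q := by
          by_contra h6
          push Not at h6
          refine hq.1.2.1 (hbk.mono ?_)
          have h7 : ((g ++ b).take S).drop (g.length - K) =
              (((g ++ b).take S).drop q).drop (g.length - K - q) := by
            rw [List.drop_drop]
            congr 1
            omega
          rw [h7]
          exact (List.drop_suffix _ _).isInfix
        rw [hSl] at a1
        have a3 := hq.1.2.2.2.1
        rw [List.take_take, min_eq_left a1.le] at a3
        obtain ⟨e, J, ht⟩ := ih q (by omega) (by omega) (by omega) a3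
        rcases ht.kind with hk | hk
        · refine ⟨e, J + 1, ht.e1, ht.e2, ht.e3, Or.inl ?_, ?_⟩
          · intro p hp
            obtain ⟨j, hj, hc⟩ := hk p hp
            refine ⟨j + 1, by omega, Cz.same _ (q - p) _ ?_ hc⟩
            have h7 := hp.1
            have h8 := hp.2.1
            exact ((hg.vw b (by omega) (by omega) hp.2.2.1).lsm (e2 p (by omega) S (by omega))
              (e2 p (by omega) q (by omega)) h2 (by omega)).2 hq
          · intro u a v hr p hp
            exact ht.back u a v (hr.same ((v.lsm (e1 u a S) (e1 u a q) h2 (by omega)).2 hq)) p hp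
        · refine ⟨e, J, ht.e1, ht.e2, ht.e3, Or.inr ?_, ?_⟩
          · intro p hp
            obtain ⟨j, hj, hc⟩ := hk p hp
            refine ⟨j, by omega, Fz.same _ (q - p) _ ?_ hc⟩
            have h7 := hp.1
            have h8 := hp.2.1
            exact ((hg.vw b (by omega) (by omega) hp.2.2.1).lsm (e2 p (by omega) S (by omega))
              (e2 p (by omega) q (by omega)) h2 (by omega)).2 hq
          · intro u a v hr p hp
            exact ht.back u a v (hr.same ((v.lsm (e1 u a S) (e1 u a q) h2 (by omega)).2 hq)) p hp
      · obtain ⟨q, h5, h6, h7, h8⟩ := exists_last (p := fun t => P.Pl ((g ++ b).take t))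
          (a := q₀) (n := S) (by omega) (by
            show P.Pl ((g ++ b).take q₀)
            rw [List.take_append_of_le_length hq2]; exact hq4)
        have hq : P.LPl ((g ++ b).take S) q := by
          refine ⟨by omega, ?_, ?_⟩
          · rw [List.take_take, min_eq_left h6.le]; exact h7
          · intro t h9 h10 h11
            rw [hSl] at h10
            rw [List.take_take, min_eq_left h10.le] at h11
            exact h8 t h9 h10 h11
        obtain ⟨e, J, ht⟩ := ih q (by omega) (by omega) (by omega) h7
        have hb : ∀ u a : List α, P.Vw u (a ++ (g ++ b)) (u ++ a) (g ++ b) →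
            P.Rz (a ++ (g ++ b)) (a.length + S) → ∀ p, P.A N K g e p →
              P.Rz (a ++ (g ++ b)) (a.length + p) := by
          intro u a v hr p hp
          refine ht.back u a v (hr.new ((v.nw (e1 u a S) (e1 u a q) h2 (by omega)
            (c := g.length - K) (by omega) (by rw [List.length_append]; omega) hbk).2
            ⟨hsm, hq⟩)) p hp
        have hnw : ∀ p, P.A N K g e p → P.NwR (g.drop p ++ b) (S - p) (q - p) := by
          intro p hp
          have h9 := hp.1
          have h10 := hp.2.1
          exact ((hg.vw b (by omega) (by omega) hp.2.2.1).nw (e2 p (by omega) S (by omega))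
            (e2 p (by omega) q (by omega)) h2 (by omega) (c := g.length - K) (by omega)
            (by rw [List.length_take, List.length_nil]; omega) hbk).2 ⟨hsm, hq⟩
        rcases ht.kind with hk | hk
        · refine ⟨e, J, ht.e1, ht.e2, ht.e3, Or.inr ?_, hb⟩
          intro p hp
          obtain ⟨j, hj, hc⟩ := hk p hp
          exact ⟨j, by omega, Fz.first _ (q - p) _ (hnw p hp) hc⟩
        · refine ⟨e, J, ht.e1, ht.e2, ht.e3, Or.inr ?_, hb⟩
          intro p hp
          obtain ⟨j, hj, hc⟩ := hk p hp
          exact ⟨j, by omega, Fz.next _ (q - p) _ (hnw p hp) hc⟩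

end Par

end Vale.Agent.P329.H409
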