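import Vale.Agent.P329.H409.Line

set_option linter.all false

/-!
Zone words.
-/

namespace Vale.Agent.P329.H409

open Vale.Agent.P329 Vale.Agent.P329.Slow Vale.Agent.P329.Mark

variable {α V : Type} [AddCommGroup V] (P : Par α V)

namespace Par

/-- `t` is a place of the class of `e` -/
def pr (g : List α) (e t : ℕ) : Prop := P.Pl (g.take t) ∧ P.ar (g.drop t) = P.ar (g.drop e)

/-- zone words: all windows of length `m` and the whole word have the same rank; the last `K`
letters contain a blocker; there is a place among the last `K` positions; the class of each such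
place occurs in all windows of length `N`, and there is no blocker between two consecutive places
of this class -/
structure Zone (N K : ℕ) (g : List α) : Prop where
  rk : ∀ x : List α, x <:+: g → x.length = P.m → (Set.range (act P.M x)).ncard = P.I.ncard
  rg : (Set.range (act P.M g)).ncard = P.I.ncard
  bl : P.Bk (g.drop (g.length - K))
  ty : ∃ q, g.length < q + K ∧ q ≤ g.length ∧ P.Pl (g.take q)
  vs : ∀ e ≤ g.length, g.length < e + K → P.Pl (g.take e) → ∀ t, t + N ≤ g.length →
    ∃ q', t < q' ∧ q' ≤ t + N ∧ 2 * P.m ≤ q' ∧ P.pr g e q'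
  nb : ∀ e ≤ g.length, g.length < e + K → P.Pl (g.take e) → ∀ q s, 2 * P.m ≤ q → q < s →
    s ≤ g.length → P.pr g e q → P.pr g e s → (∀ t, q < t → t < s → ¬ P.pr g e t) →
    ¬ P.Bk ((g.take s).drop q)
  hN : 0 < N
  hm : 2 * P.m ≤ N
  hK : N ≤ K
  hl : K + (P.D + 5) * N + 2 * P.m + 1 ≤ g.length

variable {P}

theorem ar_mem_range {h z : List α} (hp : P.Pl h) (hl : 2 * P.m ≤ h.length) {k : ℕ}
    (hk : k ≤ 2 * P.m) (x : P.I) : P.ar z x ∈ Set.range (act P.M (lst k (h ++ z))) := by
  obtain ⟨i, hi⟩ := x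
  rw [← hp] at hi
  obtain ⟨v, rfl⟩ := hi
  have h1 : lst (2 * P.m) h ++ z <:+ h ++ z := by
    obtain ⟨t, ht⟩ := lst_suffix (2 * P.m) h
    exact ⟨t, by rw [← List.append_assoc, ht]⟩
  refine range_suffix P.M (suffix_lst h1 ?_) ⟨v, act_append _ _ _ _⟩
  rw [List.length_append, lst_length hl]
  omega

namespace Zone

variable [Finite V] {g : List α} {N K : ℕ}

theorem injr (hg : P.Zone N K g) {t : ℕ} (h1 : P.m ≤ t) (h2 : t ≤ g.length) :
    Set.InjOn (act P.M (g.drop t)) (Set.range (act P.M (lst P.m (g.take t)))) := by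
  have hl : P.m ≤ (g.take t).length := by rw [List.length_take]; omega
  have h3 := hg.rk (lst P.m (g.take t))
    ((lst_suffix _ _).isInfix.trans (List.take_prefix _ _).isInfix) (lst_length hl)
  apply Set.injOn_of_ncard_image_eq _ (Set.toFinite _)
  apply le_antisymm (Set.ncard_image_le (Set.toFinite _))
  rw [h3, ← hg.rg]
  refine Set.ncard_le_ncard ?_ (Set.toFinite _)
  conv_lhs => rw [← List.take_append_drop t g]
  rw [range_append]
  exact Set.image_mono (range_suffix _ (lst_suffix _ _))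

theorem ar_mem (hg : P.Zone N K g) {q t : ℕ} (h1 : 2 * P.m ≤ q) (h2 : q ≤ t) (h3 : t ≤ g.length)
    (hp : P.Pl (g.take q)) {k : ℕ} (hk : k ≤ 2 * P.m) (x : P.I) :
    P.ar ((g.take t).drop q) x ∈ Set.range (act P.M (lst k (g.take t))) := by
  have h4 := ar_mem_range (z := (g.take t).drop q) hp (by rw [List.length_take]; omega) hk x
  rwa [take_take_drop g h2] at h4

theorem ar_drop (g : List α) {q t : ℕ} (h : q ≤ t) :
    P.tr (g.drop t) (P.ar ((g.take t).drop q)) = P.ar (g.drop q) := by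
  rw [← ar_append, take_drop_take g h]

/-- cancellation of arrows in a zone word -/
theorem cancel (hg : P.Zone N K g) {q q' t : ℕ} (h1 : 2 * P.m ≤ q) (h2 : q ≤ t) (h1' : 2 * P.m ≤ q')
    (h2' : q' ≤ t) (h3 : t ≤ g.length) (hp : P.Pl (g.take q)) (hp' : P.Pl (g.take q'))
    (he : P.ar (g.drop q) = P.ar (g.drop q')) :
    P.ar ((g.take t).drop q) = P.ar ((g.take t).drop q') := by
  rw [← ar_drop g h2, ← ar_drop g h2'] at he
  funext x
  exact hg.injr (by omega) h3 (hg.ar_mem h1 h2 h3 hp (by omega) x)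
    (hg.ar_mem h1' h2' h3 hp' (by omega) x) (congrFun he x)

theorem cancel_one (hg : P.Zone N K g) {q q' : ℕ} (h1 : 2 * P.m ≤ q) (h2 : q ≤ q')
    (h3 : q' ≤ g.length) (hp : P.Pl (g.take q)) (hp' : P.Pl (g.take q'))
    (he : P.ar (g.drop q) = P.ar (g.drop q')) : P.ar ((g.take q').drop q) = P.ar [] := by
  rw [hg.cancel h1 h2 (h1.trans h2) le_rfl h3 hp hp' he]
  rw [List.drop_eq_nil_of_le (by rw [List.length_take]; omega)]

theorem one_cancel (g : List α) {q q' : ℕ} (h2 : q ≤ q')
    (he : P.ar ((g.take q').drop q) = P.ar []) : P.ar (g.drop q) = P.ar (g.drop q') := by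
  rw [← ar_drop g h2, he, tr_one]

theorem imgI (hg : P.Zone N K g) {p : ℕ} (h1 : 2 * P.m ≤ p) (h2 : p ≤ g.length)
    (hp : P.Pl (g.take p)) {t : ℕ} (h3 : P.m ≤ t) (h4 : t ≤ 2 * P.m) :
    Set.range (act P.M (lst t (g.take p))) = P.I := by
  have hl : (g.take p).length = p := by rw [List.length_take]; omega
  have h5 : P.I ⊆ Set.range (act P.M (lst t (g.take p))) := by
    conv_lhs => rw [← show Set.range (act P.M (lst (2 * P.m) (g.take p))) = P.I from hp]
    exact range_suffix _ (suffix_lst (lst_suffix _ _) (by rw [lst_length (by omega)]; omega))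
  have h6 : Set.range (act P.M (lst t (g.take p))) ⊆
      Set.range (act P.M (lst P.m (g.take p))) :=
    range_suffix _ (suffix_lst (lst_suffix _ _) (by rw [lst_length (by omega)]; omega))
  have h7 := hg.rk (lst P.m (g.take p))
    ((lst_suffix _ _).isInfix.trans (List.take_prefix _ _).isInfix) (lst_length (by omega))
  refine (Set.eq_of_subset_of_ncard_le h5 ?_ (Set.toFinite _)).symm
  rw [← h7]
  exact Set.ncard_le_ncard h6 (Set.toFinite _)

theorem si (hg : P.Zone N K g) {p : ℕ} (h1 : 2 * P.m ≤ p) (h2 : p ≤ g.length)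
    (hp : P.Pl (g.take p)) : P.SI (g.take p) :=
  ⟨by rw [List.length_take]; omega, fun t h3 h4 => hg.imgI h1 h2 hp h3 h4⟩

theorem ss (hg : P.Zone N K g) {p : ℕ} (h1 : 2 * P.m ≤ p) (h2 : p + 2 * P.m ≤ g.length)
    (hp : P.Pl (g.take p)) : P.SS (g.drop p) := by
  have hl : (g.take p).length = p := by rw [List.length_take]; omega
  have h3 := hg.rk ((g.drop p).take P.m)
    ((List.take_prefix _ _).isInfix.trans (List.drop_suffix _ _).isInfix)
    (by rw [List.length_take, List.length_drop]; omega)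
  have h4 : Set.InjOn (act P.M ((g.drop p).take P.m)) P.I := by
    intro x hx y hy he
    have h5 := hg.imgI h1 (by omega) hp le_rfl (show P.m ≤ 2 * P.m by omega)
    refine hg.injr (t := p) (by omega) (by omega) (h5 ▸ hx) (h5 ▸ hy) ?_
    rw [← List.take_append_drop P.m (g.drop p), act_append, act_append, he]
  refine ⟨by rw [List.length_drop]; omega, ?_⟩
  refine (Set.eq_of_subset_of_ncard_le ?_ ?_ (Set.toFinite _)).symm
  · rintro _ ⟨x, -, rfl⟩
    exact ⟨x, rfl⟩
  · rw [h3, Set.ncard_image_of_injOn h4]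

/-- the last place of the same class -/
theorem prevS (hg : P.Zone N K g) {e s : ℕ} (he1 : g.length < e + K) (he2 : e ≤ g.length)
    (he3 : P.Pl (g.take e)) (h1 : N + 2 * P.m < s) (h2 : s ≤ g.length)
    (hs : P.pr g e s) : ∃ q, P.LSm (g.take s) q ∧ s ≤ q + N ∧ q < s ∧ P.pr g e q ∧
      ∀ t, q < t → t < s → ¬ P.pr g e t := by
  have hl : (g.take s).length = s := by rw [List.length_take]; omega
  obtain ⟨q', h3, h4, h5, h6⟩ := hg.vs e he2 he1 he3 (s - 1 - N) (by omega)
  obtain ⟨q, h8, h9, h10, h11⟩ := exists_last (p := P.pr g e) (a := q') (n := s)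
    (by omega) h6
  have hN := hg.hN
  have hm := hg.hm
  refine ⟨q, ⟨⟨by omega, ?_, hs.1, ?_, ?_⟩, ?_⟩, by omega, h9, h10, h11⟩
  · exact hg.nb e he2 he1 he3 q s (by omega) h9 h2 h10 hs h11
  · rw [List.take_take, min_eq_left h9.le]; exact h10.1
  · exact hg.cancel_one (by omega) h9.le h2 h10.1 hs.1 (h10.2.trans hs.2.symm)
  · rintro t h12 h13 ⟨-, -, -, h14, h15⟩
    rw [hl] at h13
    rw [List.take_take, min_eq_left h13.le] at h14
    exact h11 t h12 h13 ⟨h14, (one_cancel g h13.le h15).trans hs.2⟩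

end Zone

end Par

end Vale.Agent.P329.H409
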