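import Vale.Agent.P329.H409.Count
import Vale.Agent.P329.H409.Zone

set_option linter.all false

/-!
Lineages in a word, seen from the right side of a cut.
-/

namespace Vale.Agent.P329.H409

open Vale.Agent.P329 Vale.Agent.P329.Slow Vale.Agent.P329.Mark

theorem ct_zero {p : ℕ → Prop} {a b : ℕ} (h : ∀ t, a < t → t ≤ b → ¬ p t) : ct p a b = 0 := by
  classical
  unfold ct
  rw [Finset.card_eq_zero, Finset.filter_eq_empty_iff]
  intro t ht
  rw [Finset.mem_Ioc] at ht
  exact h t ht.1 ht.2

theorem ct_step {p : ℕ → Prop} {a q s : ℕ} (h1 : a ≤ q) (h2 : q < s) (h3 : p s)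
    (h4 : ∀ t, q < t → t < s → ¬ p t) : ct p a s = ct p a q + 1 := by
  rw [ct_add p h1 h2.le]
  congr 1
  obtain ⟨s, rfl⟩ : ∃ s', s = s' + 1 := ⟨s - 1, by omega⟩
  rw [ct_add p (show q ≤ s by omega) (Nat.le_succ s),
    ct_zero fun t h5 h6 => h4 t h5 (by omega), Nat.zero_add]
  exact ct_one.2.1 h3

variable {α V : Type} [AddCommGroup V] (P : Par α V)

namespace Par

/-- a word `u ++ z = h ++ y`, cut after `u` -/
structure Vw (u z h y : List α) : Prop where
  eq : u ++ z = h ++ y
  si : P.SI u
  ss : P.SS z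

/-- `s` descends from the cut -/
def Rz (z : List α) (s : ℕ) : Prop := ∃ j, P.Cz z s j ∨ P.Fz z s j

variable {P}

theorem Sm_local (h : List α) {y : List α} {q : ℕ} (hq : 2 * P.m ≤ q) :
    P.Sm (h ++ y) (h.length + q) ↔ P.Sm y q := by
  unfold Sm
  rw [List.length_append, take_len_add, drop_len_add]
  constructor
  · rintro ⟨h1, h2, h3, h4, h5⟩
    exact ⟨by omega, h2, (Pl_local h (by omega)).1 h3,
      (Pl_local h (by rw [List.length_take]; omega)).1 h4, h5⟩
  · rintro ⟨h1, h2, h3, h4, h5⟩
    exact ⟨by omega, h2, (Pl_local h (by omega)).2 h3,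
      (Pl_local h (by rw [List.length_take]; omega)).2 h4, h5⟩

namespace Vw

variable {u z h y : List α}

theorem len (v : P.Vw u z h y) : u.length + z.length = h.length + y.length := by
  rw [← List.length_append, v.eq, List.length_append]

theorem tk (v : P.Vw u z h y) {t t' : ℕ} (e : u.length + t = h.length + t') :
    u ++ z.take t = h ++ y.take t' := by
  rw [← take_len_add, ← take_len_add, v.eq, e]

theorem pl (v : P.Vw u z h y) {t t' : ℕ} (e : u.length + t = h.length + t')
    (h1 : t' ≤ y.length) (h2 : 2 * P.m ≤ t') : P.PlR (z.take t) ↔ P.Pl (y.take t') := by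
  have hl := v.len
  rw [← v.si.pl_iff v.ss (show t ≤ z.length by omega), v.tk e,
    Pl_local h (by rw [List.length_take]; omega)]

theorem sm (v : P.Vw u z h y) {s s' q q' : ℕ} (e : u.length + s = h.length + s')
    (e' : u.length + q = h.length + q') (h1 : s' ≤ y.length) (h2 : 2 * P.m ≤ q') :
    P.SmR z s q ↔ P.Sm (y.take s') q' := by
  have hl := v.len
  rw [← v.si.sm_iff v.ss (show s ≤ z.length by omega), v.tk e, e', Sm_local h h2]

theorem lsm (v : P.Vw u z h y) {s s' q q' : ℕ} (e : u.length + s = h.length + s')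
    (e' : u.length + q = h.length + q') (h1 : s' ≤ y.length) (h2 : 2 * P.m ≤ q') :
    P.LSmR z s q ↔ P.LSm (y.take s') q' := by
  have hl := v.len
  have hs : (y.take s').length = s' := by rw [List.length_take]; omega
  unfold LSmR LSm
  rw [v.sm e e' h1 h2, hs]
  refine and_congr_right fun _ => ?_
  constructor
  · intro h3 t h4 h5
    obtain ⟨t', ht'⟩ : ∃ t', u.length + t' = h.length + t := ⟨h.length + t - u.length, by omega⟩
    rw [← v.sm e ht' h1 (by omega)]
    exact h3 t' (by omega) (by omega)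
  · intro h3 t h4 h5
    obtain ⟨t', ht'⟩ : ∃ t', u.length + t = h.length + t' := ⟨u.length + t - h.length, by omega⟩
    rw [v.sm e ht' h1 (by omega)]
    exact h3 t' (by omega) (by omega)

theorem dr (v : P.Vw u z h y) {s s' t t' : ℕ} (e : u.length + s = h.length + s')
    (e' : u.length + t = h.length + t') : (z.take s).drop t = (y.take s').drop t' := by
  rw [← drop_len_add u (z.take s) t, v.tk e, e', drop_len_add]

theorem nw (v : P.Vw u z h y) {s s' q q' : ℕ} (e : u.length + s = h.length + s')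
    (e' : u.length + q = h.length + q') (h1 : s' ≤ y.length) (h2 : 2 * P.m ≤ q') {c : ℕ}
    (h3 : 2 * P.m ≤ c) (h4 : u.length ≤ h.length + c) (h5 : P.Bk ((y.take s').drop c)) :
    P.NwR z s q ↔ (¬ ∃ t, P.Sm (y.take s') t) ∧ P.LPl (y.take s') q' := by
  have hl := v.len
  have hs : (y.take s').length = s' := by rw [List.length_take]; omega
  have hy : ∀ t, P.Sm (y.take s') t → c < t := by
    intro t ht
    by_contra h6
    push Not at h6
    refine ht.2.1 (h5.mono ?_)
    have h7 : (y.take s').drop c = ((y.take s').drop t).drop (c - t) := by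
      rw [List.drop_drop]
      congr 1
      omega
    rw [h7]
    exact (List.drop_suffix _ _).isInfix
  obtain ⟨c', hc'⟩ : ∃ c', u.length + c' = h.length + c := ⟨h.length + c - u.length, by omega⟩
  have hz : ∀ t, P.SmR z s t → c' < t := by
    intro t ht
    by_contra h6
    push Not at h6
    refine ht.2.2.1 (h5.mono ?_)
    rw [← v.dr e hc']
    have h7 : (z.take s).drop c' = ((z.take s).drop t).drop (c' - t) := by
      rw [List.drop_drop]
      congr 1
      omega
    rw [h7]
    exact (List.drop_suffix _ _).isInfix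
  have hb : P.Bk (z.take s) := by
    refine h5.mono ?_
    rw [← v.dr e hc']
    exact (List.drop_suffix _ _).isInfix
  constructor
  · rintro ⟨a1, a2, a3, a4, a5, a6⟩
    refine ⟨?_, ?_, ?_, ?_⟩
    · rintro ⟨t, ht⟩
      have h5 := hy t ht
      obtain ⟨t', ht'⟩ : ∃ t', u.length + t' = h.length + t := ⟨h.length + t - u.length, by omega⟩
      exact a4 t' ((v.sm e ht' h1 (by omega)).2 ht)
    · rw [hs]; omega
    · rw [List.take_take, min_eq_left (by omega)]
      exact (v.pl e' (by omega) h2).1 a5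
    · intro t h5 h6 h7
      rw [hs] at h6
      rw [List.take_take, min_eq_left (by omega)] at h7
      obtain ⟨t', ht'⟩ : ∃ t', u.length + t' = h.length + t := ⟨h.length + t - u.length, by omega⟩
      exact a6 t' (by omega) (by omega) ((v.pl ht' (by omega) (by omega)).2 h7)
  · rintro ⟨a1, a2, a3, a4⟩
    rw [hs] at a2
    rw [List.take_take, min_eq_left (by omega)] at a3
    refine ⟨by omega, by omega, hb, ?_, (v.pl e' (by omega) h2).2 a3, ?_⟩
    · intro t ht
      have h5 := hz t ht
      obtain ⟨t', ht'⟩ : ∃ t', u.length + t = h.length + t' := ⟨u.length + t - h.length, by omega⟩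
      exact a1 ⟨t', (v.sm e ht' h1 (by omega)).1 ht⟩
    · intro t h5 h6 h7
      obtain ⟨t', ht'⟩ : ∃ t', u.length + t = h.length + t' := ⟨u.length + t - h.length, by omega⟩
      refine a4 t' (by omega) (by rw [hs]; omega) ?_
      rw [List.take_take, min_eq_left (by omega)]
      exact (v.pl ht' (by omega) (by omega)).1 h7

end Vw

theorem LSmR.uniq {z : List α} {s q q' : ℕ} (h1 : P.LSmR z s q) (h2 : P.LSmR z s q') :
    q = q' := by
  rcases Nat.lt_trichotomy q q' with h3 | h3 | h3
  · exact absurd h2.1 (h1.2 q' h3 h2.1.1)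
  · exact h3
  · exact absurd h1.1 (h2.2 q h3 h1.1.1)

theorem NwR.uniq {z : List α} {s q q' : ℕ} (h1 : P.NwR z s q) (h2 : P.NwR z s q') :
    q = q' := by
  rcases Nat.lt_trichotomy q q' with h3 | h3 | h3
  · exact absurd h2.2.2.2.2.1 (h1.2.2.2.2.2 q' h3 h2.1)
  · exact h3
  · exact absurd h1.2.2.2.2.1 (h2.2.2.2.2.2 q h3 h1.1)

theorem NwR.nsm {z : List α} {s q t : ℕ} (h1 : P.NwR z s q) : ¬ P.LSmR z s t :=
  fun h => h1.2.2.2.1 _ h.1

theorem Cz_uniq {z : List α} {s j : ℕ} (h : P.Cz z s j) : ∀ j', P.Cz z s j' → j = j' := by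
  induction h with
  | nil =>
    intro j' h
    cases h with
    | nil => rfl
    | same _ q j h1 h2 => exact absurd h1.1.1 (Nat.not_lt_zero _)
  | same s q j h1 h2 ih =>
    intro j' h
    cases h with
    | nil => exact absurd h1.1.1 (Nat.not_lt_zero _)
    | same _ q' j' h3 h4 =>
      obtain rfl := h1.uniq h3
      rw [ih _ h4]

theorem Cz_not_Fz {z : List α} {s j : ℕ} (h : P.Cz z s j) : ∀ j', ¬ P.Fz z s j' := by
  induction h with
  | nil =>
    intro j' h
    cases h with
    | first _ q _ h1 h2 => exact absurd h1.1 (Nat.not_lt_zero _)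
    | same _ q _ h1 h2 => exact absurd h1.1.1 (Nat.not_lt_zero _)
    | next _ q _ h1 h2 => exact absurd h1.1 (Nat.not_lt_zero _)
  | same s q j h1 h2 ih =>
    intro j' h
    cases h with
    | first _ q' _ h3 h4 => exact h3.nsm h1
    | same _ q' _ h3 h4 =>
      obtain rfl := h1.uniq h3
      exact ih _ h4
    | next _ q' _ h3 h4 => exact h3.nsm h1

theorem Fz_uniq {z : List α} {s j : ℕ} (h : P.Fz z s j) : ∀ j', P.Fz z s j' → j = j' := by
  induction h with
  | first s q j h1 h2 =>
    intro j' h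
    cases h with
    | first _ q' _ h3 h4 =>
      obtain rfl := h1.uniq h3
      exact Cz_uniq h2 _ h4
    | same _ q' _ h3 h4 => exact absurd h3 h1.nsm
    | next _ q' _ h3 h4 =>
      obtain rfl := h1.uniq h3
      exact absurd h4 (Cz_not_Fz h2 _)
  | same s q j h1 h2 ih =>
    intro j' h
    cases h with
    | first _ q' _ h3 h4 => exact absurd h1 h3.nsm
    | same _ q' _ h3 h4 =>
      obtain rfl := h1.uniq h3
      exact ih _ h4
    | next _ q' _ h3 h4 => exact absurd h1 h3.nsm
  | next s q j h1 h2 ih =>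
    intro j' h
    cases h with
    | first _ q' _ h3 h4 =>
      obtain rfl := h1.uniq h3
      exact absurd h2 (Cz_not_Fz h4 _)
    | same _ q' _ h3 h4 => exact absurd h3 h1.nsm
    | next _ q' _ h3 h4 =>
      obtain rfl := h1.uniq h3
      exact ih _ h4

theorem Rz.same {z : List α} {s q : ℕ} (hr : P.Rz z s) (h : P.LSmR z s q) : P.Rz z q := by
  obtain ⟨j, hj | hj⟩ := hr
  · cases hj with
    | nil => exact absurd h.1.1 (Nat.not_lt_zero _)
    | same _ q' j h1 h2 =>
      obtain rfl := h.uniq h1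
      exact ⟨_, Or.inl h2⟩
  · cases hj with
    | first _ q' _ h1 h2 => exact absurd h h1.nsm
    | same _ q' _ h1 h2 =>
      obtain rfl := h.uniq h1
      exact ⟨_, Or.inr h2⟩
    | next _ q' _ h1 h2 => exact absurd h h1.nsm

theorem Rz.new {z : List α} {s q : ℕ} (hr : P.Rz z s) (h : P.NwR z s q) : P.Rz z q := by
  obtain ⟨j, hj | hj⟩ := hr
  · cases hj with
    | nil => exact absurd h.1 (Nat.not_lt_zero _)
    | same _ q' j h1 h2 => exact absurd h1 h.nsm
  · cases hj with
    | first _ q' _ h1 h2 =>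
      obtain rfl := h.uniq h1
      exact ⟨_, Or.inl h2⟩
    | same _ q' _ h1 h2 => exact absurd h1 h.nsm
    | next _ q' _ h1 h2 =>
      obtain rfl := h.uniq h1
      exact ⟨_, Or.inr h2⟩

section comp

variable {u z h y u' z' h' : List α} {p K : ℕ}

theorem comp_same (v : P.Vw u z h y) (w : P.Vw u' z' h' y) (e : u.length + K = h.length + p)
    (e' : u'.length = h'.length + p) (hp : 2 * P.m ≤ p) {s q : ℕ} (h1 : P.LSmR z' s q) :
    P.LSmR z (K + s) (K + q) := by
  have hs := h1.1.2.1
  have hl := w.len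
  rw [w.lsm (s' := p + s) (q' := p + q) (by omega) (by omega) (by omega) (by omega)] at h1
  exact (v.lsm (by omega) (by omega) (by omega) (by omega)).2 h1

theorem comp_new (v : P.Vw u z h y) (w : P.Vw u' z' h' y) (e : u.length + K = h.length + p)
    (e' : u'.length = h'.length + p) (hp : 2 * P.m ≤ p) {s q : ℕ} (h1 : P.NwR z' s q) :
    P.NwR z (K + s) (K + q) := by
  have hs := h1.2.1
  have hb := h1.2.2.1
  have hl := w.len
  have h2 : P.Bk ((y.take (p + s)).drop p) := by
    rw [← w.dr (s := s) (t := 0) (by omega) (by omega)]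
    exact hb
  rw [w.nw (s' := p + s) (q' := p + q) (by omega) (by omega) (by omega) (by omega) hp
    (by omega) h2] at h1
  exact (v.nw (by omega) (by omega) (by omega) (by omega) hp (by omega) h2).2 h1

theorem comp_CC (v : P.Vw u z h y) (w : P.Vw u' z' h' y) (e : u.length + K = h.length + p)
    (e' : u'.length = h'.length + p) (hp : 2 * P.m ≤ p) {s j₁ j₂ : ℕ} (h1 : P.Cz z K j₁)
    (h2 : P.Cz z' s j₂) : P.Cz z (K + s) (j₁ + j₂) := by
  induction h2 with
  | nil => exact h1
  | same s q j h3 h4 ih => exact Cz.same _ _ _ (comp_same v w e e' hp h3) ih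

theorem comp_FC (v : P.Vw u z h y) (w : P.Vw u' z' h' y) (e : u.length + K = h.length + p)
    (e' : u'.length = h'.length + p) (hp : 2 * P.m ≤ p) {s j₁ j₂ : ℕ} (h1 : P.Fz z K j₁)
    (h2 : P.Cz z' s j₂) : P.Fz z (K + s) j₁ := by
  induction h2 with
  | nil => exact h1
  | same s q j h3 h4 ih => exact Fz.same _ _ _ (comp_same v w e e' hp h3) ih

theorem comp_CF (v : P.Vw u z h y) (w : P.Vw u' z' h' y) (e : u.length + K = h.length + p)
    (e' : u'.length = h'.length + p) (hp : 2 * P.m ≤ p) {s j₁ j₂ : ℕ} (h1 : P.Cz z K j₁)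
    (h2 : P.Fz z' s j₂) : P.Fz z (K + s) (j₁ + j₂) := by
  induction h2 with
  | first s q j h3 h4 =>
    exact Fz.first _ _ _ (comp_new v w e e' hp h3) (comp_CC v w e e' hp h1 h4)
  | same s q j h3 h4 ih => exact Fz.same _ _ _ (comp_same v w e e' hp h3) ih
  | next s q j h3 h4 ih => exact Fz.next _ _ _ (comp_new v w e e' hp h3) ih

theorem comp_FF (v : P.Vw u z h y) (w : P.Vw u' z' h' y) (e : u.length + K = h.length + p)
    (e' : u'.length = h'.length + p) (hp : 2 * P.m ≤ p) {s j₁ j₂ : ℕ} (h1 : P.Fz z K j₁)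
    (h2 : P.Fz z' s j₂) : P.Fz z (K + s) j₁ := by
  induction h2 with
  | first s q j h3 h4 =>
    exact Fz.next _ _ _ (comp_new v w e e' hp h3) (comp_FC v w e e' hp h1 h4)
  | same s q j h3 h4 ih => exact Fz.same _ _ _ (comp_same v w e e' hp h3) ih
  | next s q j h3 h4 ih => exact Fz.next _ _ _ (comp_new v w e e' hp h3) ih

end comp

end Par

end Vale.Agent.P329.H409
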